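import Vale.Agent.P166.Soft.Semicircle

/-!
Rotation invariance of the Gaussian orthogonal ensemble, and uniqueness of the semicircle law.
-/

open MeasureTheory ProbabilityTheory Filter Matrix
open scoped Topology

noncomputable section

namespace Vale.Agent.P166.Soft

open Pattern.Multi (Law cauchy Rk)

variable {N : ℕ}

/-- rotation of an array: `Uᵀ g U` -/
def rot {N : ℕ} (U : Mat N) (g : Fin N × Fin N → ℝ) : Fin N × Fin N → ℝ :=
  fun p => ∑ a, ∑ b, U a p.1 * g (a, b) * U b p.2

lemma continuous_rot : Continuous fun p : (Fin N × Fin N → ℝ) × Mat N => rot p.2 p.1 := by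
  unfold rot
  fun_prop

theorem mp_rot {U : Mat N} (hU : Matrix.of U ∈ Matrix.orthogonalGroup (Fin N) ℝ) :
    (Pattern.gauss (Fin N × Fin N)).map (rot U) = Pattern.gauss (Fin N × Fin N) := by
  have h1 : (Matrix.of U)ᵀ * Matrix.of U = 1 := by
    simpa using (Matrix.mem_orthogonalGroup_iff' _ _).1 hU
  have hcol : ∀ i k, ∑ a, U a i * U a k = if i = k then 1 else 0 := fun i k => by
    simpa [Matrix.mul_apply, Matrix.one_apply] using congrFun (congrFun h1 i) k
  have := Pattern.Signed.map_orth (κ := Fin N × Fin N) (fun (p k : Fin N × Fin N) => U k.1 p.1 * U k.2 p.2)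
    fun p r => by
      rw [Fintype.sum_prod_type]
      calc ∑ a, ∑ b, U a p.1 * U b p.2 * (U a r.1 * U b r.2)
          = (∑ a, U a p.1 * U a r.1) * ∑ b, U b p.2 * U b r.2 := by
            rw [Finset.sum_mul_sum]
            exact Finset.sum_congr rfl fun a _ => Finset.sum_congr rfl fun b _ => by ring
        _ = _ := by rw [hcol, hcol]; simp only [Prod.ext_iff]; split_ifs <;> simp_all
  rw [show rot U = fun (g : Fin N × Fin N → ℝ) (p : Fin N × Fin N) => ∑ k : Fin N × Fin N, U k.1 p.1 * U k.2 p.2 * g k by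
    funext g p
    simp only [rot, Fintype.sum_prod_type]
    exact Finset.sum_congr rfl fun a _ => Finset.sum_congr rfl fun b _ => by ring]
  exact this

lemma goe_rot (U : Mat N) (g : Fin N × Fin N → ℝ) :
    goe (rot U g) = (Matrix.of U)ᵀ * goe g * Matrix.of U := by
  ext i k
  simp only [goe, rot, Matrix.of_apply, Matrix.mul_apply, Matrix.transpose_apply]
  rw [Finset.sum_comm (f := fun a b => U a k * g (a, b) * U b i), ← Finset.sum_add_distrib, Finset.sum_div]
  conv_rhs => enter [2, a]; rw [Finset.sum_mul]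
  conv_rhs => rw [Finset.sum_comm]
  refine Finset.sum_congr rfl fun a _ => ?_
  rw [← Finset.sum_add_distrib, Finset.sum_div]
  exact Finset.sum_congr rfl fun b _ => by ring

theorem semicircle_unique {ν ν' : Measure ℝ} [IsProbabilityMeasure ν] [IsProbabilityMeasure ν']
    (hν : IsCompact ν.support) (hν' : IsCompact ν'.support)
    (he : ∀ᶠ w in atTop, w = 1 / (∫ x, 1/(w-x) ∂ν) + (∫ x, 1/(w-x) ∂ν))
    (he' : ∀ᶠ w in atTop, w = 1 / (∫ x, 1/(w-x) ∂ν') + (∫ x, 1/(w-x) ∂ν')) : ν = ν' := by
  obtain ⟨B, hB⟩ := (hν.union hν').isBounded.subset_closedBall 0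
  have hlaw : ∀ (μ : Measure ℝ) [IsProbabilityMeasure μ], μ.support ⊆ ν.support ∪ ν'.support → Law μ (-B) B :=
    fun μ _ hμ => ⟨inferInstance, by
      filter_upwards [Measure.support_mem_ae (μ := μ)] with x hx
      have := hB (hμ hx)
      rw [Metric.mem_closedBall, Real.dist_eq, sub_zero] at this
      exact abs_le.1 this⟩
  have h := hlaw ν Set.subset_union_left
  have h' := hlaw ν' Set.subset_union_right
  refine ext_of_forall_integral_eq_of_IsFiniteMeasure fun g => ?_
  exact Pattern.Multi.integral_unique h h' (Pattern.Multi.cauchy_unique carried_dirac 0 h h'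
    (he.mono fun w hw => by rw [Rk_dirac]; exact hw)
    (he'.mono fun w hw => by rw [Rk_dirac]; exact hw)) g

end Vale.Agent.P166.Soft
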