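import Vale.Agent.P166.Soft.Layers
import Vale.Agent.P166.Soft.Invariance
import Vale.Agent.P166.Pattern.Assemble

/-!
Existence of the limiting pressure at every temperature for images of the semicircle law under
`x ↦ α + s x + ∑ c_j / (a_j - x)`.
-/

open MeasureTheory Filter Matrix
open scoped Topology

noncomputable section

namespace Vale.Agent.P166.Soft

open Pattern (gauss exists_admissible)

/-- truncation to `[-Λ, Λ]` -/
def cl (Λ x : ℝ) : ℝ := max (-Λ) (min Λ x)

lemma abs_cl {Λ : ℝ} (hΛ : 0 ≤ Λ) (x : ℝ) : |cl Λ x| ≤ Λ :=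
  abs_le.2 ⟨le_max_left _ _, max_le (by linarith) (min_le_left _ _)⟩

lemma cl_of_abs_le {Λ x : ℝ} (hx : |x| ≤ Λ) : cl Λ x = x := by
  rw [cl, min_eq_right (abs_le.1 hx).2, max_eq_right (abs_le.1 hx).1]

lemma continuous_cl (Λ : ℝ) : Continuous (cl Λ) := by unfold cl; fun_prop

lemma mono_cl (Λ : ℝ) : Monotone (cl Λ) := fun _ _ h => max_le_max le_rfl (min_le_min le_rfl h)

variable {q : ℕ} {a c : Fin q → ℝ} {α s Λ : ℝ}

lemma den_pos (hΛ : 0 ≤ Λ) (ha : ∀ j, Λ < a j) (j : Fin q) (x : ℝ) : 0 < a j - cl Λ x := by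
  linarith [ha j, (abs_le.1 (abs_cl hΛ x)).2]

lemma continuous_psi (hΛ : 0 ≤ Λ) (ha : ∀ j, Λ < a j) : Continuous fun x => phi α s a c (cl Λ x) := by
  have := continuous_cl Λ
  unfold phi
  refine Continuous.add (by fun_prop) (continuous_finsetSum _ fun j _ => ?_)
  exact continuous_const.div (by fun_prop) fun x => (den_pos hΛ ha j x).ne'

lemma mono_psi (hs : 0 ≤ s) (hc : ∀ j, 0 ≤ c j) (hΛ : 0 ≤ Λ) (ha : ∀ j, Λ < a j) :
    Monotone fun x => phi α s a c (cl Λ x) := fun x y h => by
  have := mono_cl Λ h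
  unfold phi
  refine add_le_add (add_le_add le_rfl (mul_le_mul_of_nonneg_left this hs)) (Finset.sum_le_sum fun j _ => ?_)
  exact div_le_div_of_nonneg_left (hc j) (den_pos hΛ ha j y) (by linarith)

variable {ν : Measure ℝ}

/-- the image law -/
lemma image_law [IsProbabilityMeasure ν] (hν : IsCompact ν.support) (htop : sSup ν.support = 2)
    (hbot : sInf ν.support = -2) (hs : 0 ≤ s) (hc : ∀ j, 0 ≤ c j) (hΛ : 2 ≤ Λ) (ha : ∀ j, Λ < a j) :
    ν.map (phi α s a c) = ν.map (fun x => phi α s a c (cl Λ x)) ∧ IsProbabilityMeasure (ν.map (phi α s a c)) ∧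
      IsCompact (ν.map (phi α s a c)).support ∧ sSup (ν.map (phi α s a c)).support = phi α s a c (cl Λ 2) := by
  set ψ := fun x => phi α s a c (cl Λ x)
  have hψ : Continuous ψ := continuous_psi (by linarith) ha
  have hmo : Monotone ψ := mono_psi hs hc (by linarith) ha
  have hmem : ∀ᵐ x ∂ν, -2 ≤ x ∧ x ≤ 2 := by
    filter_upwards [Measure.support_mem_ae (μ := ν)] with x hx
    exact ⟨hbot ▸ csInf_le hν.bddBelow hx, htop ▸ le_csSup hν.bddAbove hx⟩
  have hae : phi α s a c =ᵐ[ν] ψ := hmem.mono fun x hx => by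
    simp only [ψ, cl_of_abs_le (show |x| ≤ Λ from abs_le.2 ⟨by linarith [hx.1], by linarith [hx.2]⟩)]
  have e : ν.map (phi α s a c) = ν.map ψ := Measure.map_congr hae
  rw [e]
  have hp : IsProbabilityMeasure (ν.map ψ) := Measure.isProbabilityMeasure_map hψ.measurable.aemeasurable
  have hsub : (ν.map ψ).support ⊆ Set.Icc (ψ (-2)) (ψ 2) := by
    refine Measure.support_subset_of_isClosed isClosed_Icc ?_
    show ∀ᵐ y ∂ν.map ψ, y ∈ Set.Icc (ψ (-2)) (ψ 2)
    refine (ae_map_iff hψ.measurable.aemeasurable (p := fun y => y ∈ Set.Icc (ψ (-2)) (ψ 2)) measurableSet_Icc).2 ?_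
    exact hmem.mono fun x hx => ⟨hmo hx.1, hmo hx.2⟩
  have h2 : ψ 2 ∈ (ν.map ψ).support := by
    have h2 : (2:ℝ) ∈ ν.support := htop ▸ hν.sSup_mem support_nonempty
    rw [Measure.mem_support_iff_forall] at h2 ⊢
    intro V hV
    exact lt_of_lt_of_le (h2 (ψ ⁻¹' V) (hψ.continuousAt.preimage_mem_nhds hV))
      (Measure.le_map_apply hψ.measurable.aemeasurable _)
  exact ⟨rfl, hp, isCompact_Icc.of_isClosed_subset Measure.isClosed_support hsub,
    le_antisymm (csSup_le ⟨_, h2⟩ fun x hx => (hsub hx).2) (le_csSup (bddAbove_Icc.mono hsub) h2)⟩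

/-- selection of an instance with typical spectrum and small defect -/
lemma exists_instance {κ : ℕ → Type} [∀ N, Fintype (κ N)] {G : ∀ N, Set (κ N → ℝ)}
    (hG : Tendsto (fun N => (gauss (κ N)).real (G N)) atTop (𝓝 1)) {Ψ : ∀ N, (κ N → ℝ) → ℝ}
    (hΨ : ∀ N g, 0 ≤ Ψ N g) (hi : ∀ N, Integrable (Ψ N) (gauss (κ N)))
    (h0 : Tendsto (fun N => ∫ g, Ψ N g ∂gauss (κ N)) atTop (𝓝 0)) :
    ∃ g : ∀ N, κ N → ℝ, (∀ᶠ N in atTop, g N ∈ G N) ∧ Tendsto (fun N => Ψ N (g N)) atTop (𝓝 0) := by
  classical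
  set t := fun N : ℕ => 4 * ∫ g, Ψ N g ∂gauss (κ N) + 1 / ((N:ℝ) + 1)
  have ht : ∀ N, 0 < t N := fun N =>
    add_pos_of_nonneg_of_pos (mul_nonneg (by norm_num) (integral_nonneg fun g => hΨ N g)) (by positivity)
  have hex : ∀ᶠ N in atTop, ∃ g, g ∈ G N ∧ Ψ N g ≤ t N := by
    filter_upwards [hG.eventually (eventually_gt_nhds (show (1/2:ℝ) < 1 by norm_num))] with N hN
    by_contra hcon
    push Not at hcon
    have h1 := mul_meas_ge_le_integral_of_nonneg (.of_forall (hΨ N)) (hi N) (t N)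
    have h2 : (gauss (κ N)).real (G N) ≤ (gauss (κ N)).real {g | t N ≤ Ψ N g} :=
      measureReal_mono fun g hg => (hcon g hg).le
    have h3 := mul_le_mul_of_nonneg_left (hN.le.trans h2) (ht N).le
    have h4 : 0 ≤ 1 / ((N:ℝ) + 1) := by positivity
    have h5 := ht N
    have h6 := integral_nonneg (μ := gauss (κ N)) (f := Ψ N) fun g => hΨ N g
    simp only [t] at *
    linarith
  refine ⟨fun N => if h : ∃ g, g ∈ G N ∧ Ψ N g ≤ t N then h.choose else 0, hex.mono fun N hN => ?_, ?_⟩
  · simp only [dif_pos hN]; exact hN.choose_spec.1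
  · refine squeeze_zero' (.of_forall fun N => hΨ N _) (hex.mono fun N hN => ?_)
      (show Tendsto t atTop (𝓝 0) by simpa [t] using (h0.const_mul 4).add tendsto_one_div_add_atTop_nhds_zero_nat)
    simp only [dif_pos hN]; exact hN.choose_spec.2

lemma min_shift (x y d : ℝ) (h : |x - y| ≤ d) : min |x| 1 ≤ d + min |y| 1 := by
  rcases le_total |y| 1 with hy | hy
  · rw [min_eq_left hy]
    exact (min_le_left _ _).trans (by linarith [abs_sub_abs_le_abs_sub x y])
  · rw [min_eq_right hy]
    linarith [min_le_right |x| 1, abs_nonneg (x - y)]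

/-- for one mesh, the pressure is within the lattice error of a constant -/
lemma mesh_bound [IsProbabilityMeasure ν] (hν : IsCompact ν.support) (htop : sSup ν.support = 2)
    (hbot : sInf ν.support = -2) {G : ∀ N : ℕ, Set (Fin N × Fin N → ℝ)}
    (hG1 : Tendsto (fun N => (gauss (Fin N × Fin N)).real (G N)) atTop (𝓝 1))
    (hGa : ∀ (g : ∀ N, Fin N × Fin N → ℝ) (lam : ∀ N, Fin N → ℝ) (Q : ∀ N, Matrix (Fin N) (Fin N) ℝ),
      (∀ᶠ N in atTop, g N ∈ G N) → (∀ N, Q N ∈ Matrix.orthogonalGroup (Fin N) ℝ) →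
      (∀ N, goe (g N) = (Q N).transpose * Matrix.diagonal (lam N) * Q N) → Admissible ν lam)
    {β : ℝ} (hβ : 0 ≤ β) (hs : 0 ≤ s) (hc : ∀ j, 0 ≤ c j) (hΛ : 2 < Λ) (ha : ∀ j, Λ < a j)
    {K C1 h : ℝ} (hK : 0 ≤ K) (hh : 0 < h)
    (hlink : ∀ (N : ℕ), 0 < N → ∀ (g : Fin N × Fin N → ℝ) (lam : Fin N → ℝ) (Q : Matrix (Fin N) (Fin N) ℝ),
        Q ∈ Matrix.orthogonalGroup (Fin N) ℝ → goe g = Qᵀ * Matrix.diagonal lam * Q → (∀ k, |lam k| ≤ Λ) →
        |pressure β (fun k => phi α s a c (lam k)) (fun i k => Q i k) -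
          (shift α β h a lam + Par.L ⟨q, a, c, β, s, K, h, hβ, hs,
            fun j => ((zero_lt_two (α := ℝ)).trans hΛ).trans (ha j), hc, hh, hK⟩ N g / N)| ≤
            q * (C1 * h + Real.log 2 / N)) :
    ∃ p : ℝ, ∀ lam : ∀ N : ℕ, Fin N → ℝ, Admissible (ν.map (phi α s a c)) lam →
      ∀ H : ∀ N : ℕ, Measure (Mat N), (∀ N, IsHaarOrthogonal (H N)) → ∀ δ : ℝ, 0 < δ →
        ∀ᶠ N : ℕ in atTop, ∫ U, min |pressure β (lam N) U - p| 1 ∂H N ≤ q * (C1 * h) + δ := by
  have hΛ0 : 0 ≤ Λ := by linarith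
  set P : Par := ⟨q, a, c, β, s, K, h, hβ, hs, fun j => ((zero_lt_two (α := ℝ)).trans hΛ).trans (ha j), hc, hh, hK⟩
  obtain ⟨ℓ, hℓ⟩ := P.sys.exists_limit
  obtain ⟨hmap, hμp, hμc, hμtop⟩ := image_law hν htop hbot hs hc hΛ.le ha (α := α)
  set μ := ν.map (phi α s a c)
  set ψ := fun x => phi α s a c (cl Λ x)
  have hψ : Continuous ψ := continuous_psi hΛ0 ha
  -- the determinant term
  set f := fun (j : Fin q) (x : ℝ) => 1 / 2 * Real.log (2 * Real.pi / (a j - cl Λ x))
  have hf : ∀ j, Continuous (f j) := fun j => by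
    have := continuous_cl Λ
    refine continuous_const.mul (Continuous.log (continuous_const.div (by fun_prop) fun x => (den_pos hΛ0 ha j x).ne') fun x =>
      (div_pos (by positivity) (den_pos hΛ0 ha j x)).ne')
  have hfb : ∀ j, ∃ C, ∀ x, ‖f j x‖ ≤ C := fun j => by
    obtain ⟨C, hC⟩ := (isCompact_Icc (a := -Λ) (b := Λ)).exists_bound_of_continuousOn (hf j).continuousOn
    refine ⟨C, fun x => ?_⟩
    have := hC (cl Λ x) (abs_le.1 (abs_cl hΛ0 x))
    simpa only [f, cl_of_abs_le (abs_cl hΛ0 x)] using this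
  choose Cf hCf using hfb
  set F := fun j => BoundedContinuousFunction.ofNormedAddCommGroup (f j) (hf j) (Cf j) (hCf j)
  set cst := β * α / 2 + q * Real.log h - ∑ j, ∫ x, f j x ∂ν
  refine ⟨cst + ℓ, fun lam' hlam' H hH δ hδ => ?_⟩
  set T := fun (N : ℕ) (x : Fin N × Fin N → ℝ) => P.L N x / N
  have hTc : ∀ N, Continuous (T N) := fun N =>
    ((smooth_lse (fun x => P.sys.wt_pos (N := N) x)).cont.comp (Pattern.continuous_lin _)).div_const _
  set Ψ := fun (N : ℕ) (g : Fin N × Fin N → ℝ) => ∫ U, min |T N (rot U g) - ℓ| 1 ∂H N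
  have hjc : ∀ N, Continuous fun p : (Fin N × Fin N → ℝ) × Mat N => min |T N (rot p.2 p.1) - ℓ| 1 := fun N =>
    (((hTc N).comp continuous_rot).sub continuous_const).abs.min continuous_const
  have hP : ∀ N, IsProbabilityMeasure (H N) := fun N => (hH N).1
  have hΨ0 : ∀ N g, 0 ≤ Ψ N g := fun N g => integral_nonneg fun U => le_min (abs_nonneg _) zero_le_one
  have hint : ∀ N, Integrable (fun p : (Fin N × Fin N → ℝ) × Mat N => min |T N (rot p.2 p.1) - ℓ| 1)
      ((gauss (Fin N × Fin N)).prod (H N)) := fun N =>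
    Integrable.of_bound (hjc N).aestronglyMeasurable 1 (.of_forall fun p => by
      rw [Real.norm_eq_abs, abs_of_nonneg (le_min (abs_nonneg _) zero_le_one)]; exact min_le_right _ _)
  have hΨi : ∀ N, Integrable (Ψ N) (gauss (Fin N × Fin N)) := fun N => (hint N).integral_prod_left
  have hΨlim : Tendsto (fun N => ∫ g, Ψ N g ∂gauss (Fin N × Fin N)) atTop (𝓝 0) := by
    have hlim : Tendsto (fun N : ℕ => √(P.sys.Cb) * (√(N:ℝ))⁻¹ + |P.sys.F N / N - ℓ|) atTop (𝓝 0) := by
      simpa using ((tendsto_inv_atTop_zero.comp (Real.tendsto_sqrt_atTop.comp tendsto_natCast_atTop_atTop)).const_mul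
        (√(P.sys.Cb))).add ((hℓ.sub_const ℓ).abs)
    refine squeeze_zero' (.of_forall fun N => integral_nonneg (hΨ0 N)) ?_ hlim
    filter_upwards [eventually_gt_atTop 0] with N hN
    have hN' : (0:ℝ) < N := by exact_mod_cast hN
    simp only [Ψ]
    rw [integral_integral_swap (hint N)]
    have hmeas : Measurable fun g : Fin N × Fin N → ℝ => min |T N g - ℓ| 1 :=
      (((hTc N).sub continuous_const).abs.min continuous_const).measurable
    refine (le_of_eq ((integral_congr_ae ((hH N).2.1.mono fun U hU => ?_)).trans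
      (by simp : ∫ _, ∫ g, min |T N g - ℓ| 1 ∂gauss (Fin N × Fin N) ∂H N = ∫ g, min |T N g - ℓ| 1 ∂gauss (Fin N × Fin N)))).trans ?_
    · have hm : Measurable (rot (N := N) U) := (continuous_rot.comp (Continuous.prodMk_left U)).measurable
      conv_rhs => rw [← mp_rot hU, integral_map hm.aemeasurable hmeas.aestronglyMeasurable]
    have hi : Integrable (fun g => |P.L N g - P.sys.F N| / N) (gauss (Fin N × Fin N)) :=
      ((integrable_lse (fun x => P.sys.wt_pos (N := N) x) _).sub (integrable_const _)).abs.div_const _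
    refine (integral_mono_of_nonneg (.of_forall fun g => le_min (abs_nonneg _) zero_le_one)
      (hi.add (integrable_const |P.sys.F N / N - ℓ|)) (.of_forall fun g => ?_)).trans ?_
    · refine (min_le_left _ _).trans ?_
      show |P.L N g / N - ℓ| ≤ |P.L N g - P.sys.F N| / N + _
      rw [show P.L N g / N - ℓ = (P.L N g - P.sys.F N) / N + (P.sys.F N / N - ℓ) by ring]
      refine (abs_add_le _ _).trans (le_of_eq ?_)
      rw [abs_div, abs_of_pos hN']
    · rw [integral_add' hi (integrable_const _), integral_div, integral_const, probReal_univ, one_smul]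
      refine add_le_add ?_ le_rfl
      refine (div_le_div_of_nonneg_right (P.sys.dev_le (N := N) fun x => P.sys.wt_pos x) hN'.le).trans (le_of_eq ?_)
      have hCb : 0 ≤ P.sys.Cb := by have := P.sys.B_nonneg; unfold Sys.Cb; positivity
      rw [Real.sqrt_mul hCb, mul_div_assoc]
      congr 1
      have hs : √(N:ℝ) * √(N:ℝ) = N := Real.mul_self_sqrt hN'.le
      have := Real.sqrt_pos.2 hN'
      field_simp
      linear_combination hs
  obtain ⟨g, hgG, hgΨ⟩ := exists_instance hG1 hΨ0 hΨi hΨlim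
  choose lamS Q hQ hW using fun N => exists_eig_goe (g N)
  have hS := hGa g lamS Q hgG hQ hW
  -- the transformed spectrum
  set Lb := |phi α s a c (cl Λ 2)| + |phi α s a c (cl Λ (-Λ))| + |phi α s a c (cl Λ Λ)| +
    (|sSup μ.support| + |sInf μ.support| + 1)
  have hnear : Near μ Lb fun N k => ψ (lamS N k) := by
    refine ⟨fun u => ?_, .of_forall fun N k => ?_, fun d hd => ?_⟩
    · have h := hS.1 (u.compContinuous ⟨ψ, hψ⟩)
      have e : ∫ x, (u.compContinuous ⟨ψ, hψ⟩) x ∂ν = ∫ x, u x ∂μ := by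
        rw [hmap, integral_map hψ.measurable.aemeasurable u.continuous.aestronglyMeasurable]
        rfl
      rw [← e]; exact h
    · have hmo := mono_psi hs hc hΛ0 ha (α := α)
      have e : ψ (lamS N k) = ψ (cl Λ (lamS N k)) := by simp only [ψ, cl_of_abs_le (abs_cl hΛ0 _)]
      have h1 := hmo (abs_le.1 (abs_cl hΛ0 (lamS N k))).1
      have h2 := hmo (abs_le.1 (abs_cl hΛ0 (lamS N k))).2
      rw [e]
      simp only [Lb, ψ] at h1 h2 ⊢
      rw [abs_le]
      constructor <;>
      linarith [neg_abs_le (phi α s a c (cl Λ (-Λ))), le_abs_self (phi α s a c (cl Λ Λ)),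
        abs_nonneg (phi α s a c (cl Λ 2)), abs_nonneg (phi α s a c (cl Λ (-Λ))), abs_nonneg (phi α s a c (cl Λ Λ)),
        abs_nonneg (sSup μ.support), abs_nonneg (sInf μ.support)]
    · obtain ⟨η, hη, hη'⟩ := Metric.continuousAt_iff.1 (hψ.continuousAt (x := 2)) d hd
      filter_upwards [hS.2.1.eventually (eventually_le_nhds (show sSup ν.support < 2 + η / 2 by rw [htop]; linarith))]
        with N hN k
      refine (mono_psi hs hc hΛ0 ha (α := α) ((le_ciSup (Set.finite_range _).bddAbove k).trans hN)).trans ?_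
      have := hη' (show dist (2 + η / 2) (2:ℝ) < η by
        rw [Real.dist_eq, add_sub_cancel_left, abs_of_pos (half_pos hη)]; linarith)
      rw [Real.dist_eq] at this
      rw [hμtop]
      linarith [(abs_lt.1 this).2]
  set φ := fun x : ℝ => min |x - (cst + ℓ)| 1
  have hφ : Continuous φ := by fun_prop
  have hLb : |sSup μ.support| ≤ Lb := by
    simp only [Lb]
    linarith [abs_nonneg (phi α s a c (cl Λ 2)), abs_nonneg (phi α s a c (cl Λ (-Λ))), abs_nonneg (phi α s a c (cl Λ Λ)),
      abs_nonneg (sInf μ.support)]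
  have hnear' : Near μ Lb lam' := by
    have h := Admissible.near hμc hlam'
    refine ⟨h.weak, h.bdd.mono fun N hN k => (hN k).trans ?_, h.top⟩
    simp only [Lb]
    linarith [abs_nonneg (phi α s a c (cl Λ 2)), abs_nonneg (phi α s a c (cl Λ (-Λ))), abs_nonneg (phi α s a c (cl Λ Λ))]
  have hdiff := near_phi_diff hμc hLb hnear hnear' hβ hH hφ
  -- the constant
  have hcst : Tendsto (fun N : ℕ => |shift α β h a (fun k => cl Λ (lamS N k)) - cst| + q * (Real.log 2 / N) + Ψ N (g N))
      atTop (𝓝 0) := by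
    have h1 : Tendsto (fun N : ℕ => shift α β h a (fun k => cl Λ (lamS N k))) atTop (𝓝 cst) := by
      simp only [shift, cst]
      simp_rw [Finset.sum_div (s := (Finset.univ : Finset (Fin q)))]
      exact tendsto_const_nhds.sub (tendsto_finsetSum _ fun j _ => by
        simpa only [F, BoundedContinuousFunction.coe_ofNormedAddCommGroup, f] using hS.1 (F j))
    simpa using (((h1.sub_const cst).abs).add ((tendsto_const_div_atTop_nhds_zero_nat (Real.log 2)).const_mul (q:ℝ))).add hgΨ
  have hbdd : ∀ᶠ N in atTop, ∀ k, |lamS N k| ≤ Λ := by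
    filter_upwards [hS.2.1.eventually (eventually_le_nhds (show sSup ν.support < Λ by rw [htop]; linarith)),
      hS.2.2.eventually (eventually_ge_nhds (show -Λ < sInf ν.support by rw [hbot]; linarith))] with N h1 h2 k
    exact abs_le.2 ⟨h2.trans (ciInf_le (Set.finite_range _).bddBelow k),
      (le_ciSup (Set.finite_range _).bddAbove k).trans h1⟩
  filter_upwards [hdiff.eventually (eventually_le_nhds (half_pos hδ)),
    hcst.eventually (eventually_le_nhds (half_pos hδ)), hbdd, eventually_gt_atTop 0] with N hd hc' hb hN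
  have hlamS : (fun k => ψ (lamS N k)) = fun k => phi α s a c (lamS N k) :=
    funext fun k => by simp only [ψ, cl_of_abs_le (hb k)]
  have hcl : (fun k => cl Λ (lamS N k)) = lamS N := funext fun k => cl_of_abs_le (hb k)
  have key : ∫ U, φ (pressure β (fun k => ψ (lamS N k)) U) ∂H N ≤
      q * (C1 * h) + (|shift α β h a (fun k => cl Λ (lamS N k)) - cst| + q * (Real.log 2 / N) + Ψ N (g N)) := by
    rw [hlamS, hcl]
    have hm : Measurable fun (U : Mat N) (i j : Fin N) => ∑ k, Q N i k * U k j := by fun_prop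
    conv_lhs => rw [← (hH N).2.2 (fun i j => Q N i j) (hQ N)]
    refine le_of_eq_of_le (integral_map hm.aemeasurable
      (hφ.measurable.comp (measurable_pressure β _)).aestronglyMeasurable) ?_
    have hiU : Integrable (fun U => min |T N (rot U (g N)) - ℓ| 1) (H N) :=
      Integrable.of_bound ((hjc N).comp (Continuous.prodMk_right (g N))).aestronglyMeasurable 1 (.of_forall fun U => by
        rw [Real.norm_eq_abs, abs_of_nonneg (le_min (abs_nonneg _) zero_le_one)]; exact min_le_right _ _)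
    refine (integral_mono_ae (Integrable.of_bound ((hφ.measurable.comp (measurable_pressure β _)).comp hm).aestronglyMeasurable 1
      (.of_forall fun U => by rw [Real.norm_eq_abs, abs_of_nonneg (le_min (abs_nonneg _) zero_le_one)]; exact min_le_right _ _))
      ((integrable_const (q * (C1 * h) + (|shift α β h a (lamS N) - cst| + q * (Real.log 2 / N)))).add hiU) ?_).trans ?_
    · filter_upwards [(hH N).2.1] with U hU
      have hV : Q N * Matrix.of U ∈ Matrix.orthogonalGroup (Fin N) ℝ := Submonoid.mul_mem _ (hQ N) hU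
      have hW' : goe (rot U (g N)) = (Q N * Matrix.of U)ᵀ * Matrix.diagonal (lamS N) * (Q N * Matrix.of U) := by
        rw [goe_rot, hW N, Matrix.transpose_mul]
        simp only [Matrix.mul_assoc]
      have hl := hlink N hN (rot U (g N)) (lamS N) _ hV hW' hb
      have hVe : (fun i k => (Q N * Matrix.of U) i k) = fun i j => ∑ k, Q N i k * U k j := by
        funext i j; simp [Matrix.mul_apply]
      rw [hVe] at hl
      simp only [Pi.add_apply, φ]
      refine min_shift _ _ _ ?_
      have h1 := abs_le.1 hl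
      have h2 := le_abs_self (shift α β h a (lamS N) - cst)
      have h3 := neg_abs_le (shift α β h a (lamS N) - cst)
      simp only [T]
      rw [abs_le]
      constructor <;> linarith
    · rw [integral_add' (integrable_const _) hiU, integral_const, probReal_univ, one_smul]
      simp only [Ψ]
      linarith
  simp only [φ] at key hd ⊢
  linarith

/-- **the limit exists at every temperature** -/
theorem image_limit [IsProbabilityMeasure ν] (hν : IsCompact ν.support)
    (heq : ∀ᶠ w : ℝ in atTop, w = 1 / (∫ x, 1 / (w - x) ∂ν) + (∫ x, 1 / (w - x) ∂ν))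
    (α : ℝ) (hs : 0 ≤ s) (hc : ∀ j, 0 ≤ c j) (ha : ∀ j, 2 < a j) :
    IsProbabilityMeasure (ν.map (phi α s a c)) ∧ IsCompact (ν.map (phi α s a c)).support ∧
      (∃ lam, Admissible (ν.map (phi α s a c)) lam) ∧
      ∀ β : ℝ, 0 ≤ β → ∃ p : ℝ, ∀ lam : ∀ N : ℕ, Fin N → ℝ, Admissible (ν.map (phi α s a c)) lam →
        ∀ H : ∀ N : ℕ, Measure (Mat N), (∀ N, IsHaarOrthogonal (H N)) → ∀ ε : ℝ, 0 < ε →
          Tendsto (fun N : ℕ => (H N).real {U | ε ≤ |pressure β (lam N) U - p|}) atTop (𝓝 0) := by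
  obtain ⟨ν', hp', hc', htop, hbot, he', G, hGm, hG1, hGa⟩ := semicircle_good
  have := semicircle_unique hν hc' heq he'
  subst this
  obtain ⟨Λ, hΛ, hΛa⟩ : ∃ Λ : ℝ, 2 < Λ ∧ ∀ j, Λ < a j := by
    rcases isEmpty_or_nonempty (Fin q) with h | h
    · exact ⟨3, by norm_num, fun j => isEmptyElim j⟩
    · obtain ⟨j0, hj0⟩ := Finite.exists_min a
      exact ⟨(2 + a j0) / 2, by linarith [ha j0], fun j => by linarith [hj0 j, ha j0]⟩
  obtain ⟨hmap, hμp, hμc, hμtop⟩ := image_law hν htop hbot hs hc hΛ.le hΛa (α := α)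
  set μ := ν.map (phi α s a c)
  -- an admissible sequence
  obtain ⟨lam0, hlam0⟩ : ∃ lam, Admissible μ lam := by
    obtain ⟨g, hg⟩ : ∃ g : ∀ N, Fin N × Fin N → ℝ, ∀ᶠ N in atTop, g N ∈ G N := by
      obtain ⟨g, hg, -⟩ := exists_instance hG1 (Ψ := fun _ _ => 0) (fun _ _ => le_rfl) (fun _ => integrable_zero _ _ _)
        (by simp)
      exact ⟨g, hg⟩
    choose lamS Q hQ hW using fun N => exists_eig_goe (g N)
    have hψ := continuous_psi (α := α) (s := s) (c := c) (by linarith : (0:ℝ) ≤ Λ) hΛa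
    refine exists_admissible hμc (lam := fun N k => phi α s a c (cl Λ (lamS N k))) fun u => ?_
    have h := (hGa g lamS Q hg hQ hW).1 (u.compContinuous ⟨_, hψ⟩)
    rw [hmap, integral_map hψ.measurable.aemeasurable u.continuous.aestronglyMeasurable]
    exact h
  refine ⟨hμp, hμc, ⟨lam0, hlam0⟩, fun β hβ => ?_⟩
  obtain ⟨K, C1, hK, hC1, hlink⟩ := link a c α hβ hs hc (by linarith : (0:ℝ) ≤ Λ) hΛa
  set hn := fun n : ℕ => 1 / ((n:ℝ) + 1)
  have hn0 : ∀ n, 0 < hn n := fun n => by positivity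
  have hn1 : ∀ n, hn n ≤ 1 := fun n => by
    simp only [hn]; rw [div_le_one (by positivity)]; linarith [Nat.cast_nonneg (α := ℝ) n]
  choose pn hpn using fun n => mesh_bound hν htop hbot hG1 hGa hβ hs hc hΛ hΛa hK (hn0 n)
    (hlink (hn n) (hn0 n) (hn1 n))
  choose H0 hH0 using exists_haar
  have hC : Tendsto (fun n => (q:ℝ) * (C1 * hn n)) atTop (𝓝 0) := by
    simpa [hn] using ((tendsto_one_div_add_atTop_nhds_zero_nat (𝕜 := ℝ)).const_mul C1).const_mul (q:ℝ)
  have hφc : ∀ x : ℝ, Continuous fun y : ℝ => min |y - x| 1 := fun x => by fun_prop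
  have hcauchy : CauchySeq pn := by
    rw [Metric.cauchySeq_iff]
    intro ε hε
    obtain ⟨n0, hn0'⟩ := eventually_atTop.1 (hC.eventually (eventually_le_nhds (show (0:ℝ) < min ε 1 / 5 by
      have := lt_min hε one_pos; linarith)))
    refine ⟨n0, fun m hm n hn' => ?_⟩
    have hmin : 0 < min ε 1 := lt_min hε one_pos
    obtain ⟨N, h1, h2, hN⟩ := ((hpn m lam0 hlam0 H0 hH0 _ (show (0:ℝ) < min ε 1 / 5 by linarith)).and
      ((hpn n lam0 hlam0 H0 hH0 _ (show (0:ℝ) < min ε 1 / 5 by linarith)).and (eventually_gt_atTop 0))).exists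
    have := (hH0 N).1
    have hi := fun x => integrable_of_continuous (hH0 N) hN hβ (lam0 N) (hφc x)
    have h3 : min |pn m - pn n| 1 ≤ ∫ U, min |pressure β (lam0 N) U - pn m| 1 ∂H0 N +
        ∫ U, min |pressure β (lam0 N) U - pn n| 1 ∂H0 N := by
      rw [← integral_add (hi _) (hi _)]
      calc min |pn m - pn n| 1 = ∫ _U, min |pn m - pn n| 1 ∂H0 N := by simp
        _ ≤ _ := integral_mono (integrable_const _) ((hi _).add (hi _)) fun U => by
          have := abs_sub_le (pn m) (pressure β (lam0 N) U) (pn n)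
          rw [abs_sub_comm (pn m) (pressure β (lam0 N) U)] at this
          simp only [Pi.add_apply]
          rcases le_total |pressure β (lam0 N) U - pn m| 1 with a1 | a1 <;>
            rcases le_total |pressure β (lam0 N) U - pn n| 1 with a2 | a2 <;>
            simp only [min_eq_left, min_eq_right, a1, a2] <;>
            linarith [min_le_left |pn m - pn n| 1, min_le_right |pn m - pn n| 1,
              abs_nonneg (pressure β (lam0 N) U - pn m), abs_nonneg (pressure β (lam0 N) U - pn n)]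
    have h4 : min |pn m - pn n| 1 < min ε 1 := by linarith [hn0' m hm, hn0' n hn']
    rw [Real.dist_eq]
    by_contra hcon
    push Not at hcon
    exact absurd h4 (not_lt.2 (min_le_min hcon le_rfl))
  obtain ⟨p, hp⟩ := cauchySeq_tendsto_of_complete hcauchy
  refine ⟨p, fun lam hlam H hH ε hε => ?_⟩
  have h1 : Tendsto (fun N : ℕ => ∫ U, min |pressure β (lam N) U - p| 1 ∂H N) atTop (𝓝 0) := by
    rw [Metric.tendsto_nhds]
    intro δ hδ
    obtain ⟨n, hn1', hn2⟩ := ((hC.eventually (eventually_le_nhds (show (0:ℝ) < δ / 4 by linarith))).and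
      (Metric.tendsto_nhds.1 hp (δ / 4) (by linarith))).exists
    filter_upwards [hpn n lam hlam H hH (δ / 4) (by linarith), eventually_gt_atTop 0] with N hN hN0
    have := (hH N).1
    rw [Real.dist_eq] at hn2
    rw [Real.dist_eq, sub_zero, abs_of_nonneg (integral_nonneg fun U => le_min (abs_nonneg _) zero_le_one)]
    refine lt_of_le_of_lt ((integral_mono (integrable_of_continuous (hH N) hN0 hβ (lam N) (hφc p))
      ((integrable_const |pn n - p|).add (integrable_of_continuous (hH N) hN0 hβ (lam N) (hφc (pn n))))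
      fun U => min_shift _ _ _ (le_of_eq (congrArg _ (by ring)))).trans_eq ?_) (show |pn n - p| +
        ∫ U, min |pressure β (lam N) U - pn n| 1 ∂H N < δ by linarith)
    rw [integral_add' (integrable_const _) (integrable_of_continuous (hH N) hN0 hβ (lam N) (hφc (pn n)))]
    simp
  have hmin : 0 < min ε 1 := lt_min hε one_pos
  refine squeeze_zero' (Eventually.of_forall fun N => measureReal_nonneg) ?_
    (by simpa using h1.div_const (min ε 1))
  filter_upwards [eventually_gt_atTop 0] with N hN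
  have := (hH N).1
  rw [le_div_iff₀ hmin, mul_comm]
  refine le_trans ?_ (mul_meas_ge_le_integral_of_nonneg
    (.of_forall fun U => le_min (abs_nonneg _) zero_le_one)
    (integrable_of_continuous (hH N) hN hβ (lam N) (hφc p)) (min ε 1))
  exact mul_le_mul_of_nonneg_left
    (measureReal_mono fun U (hU : ε ≤ |pressure β (lam N) U - p|) => min_le_min hU le_rfl) hmin.le

end Vale.Agent.P166.Soft
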