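import Vale.Agent.P166.Soft.Image

/-!
The class with a limit at every temperature is closed under uniform limits of the spectral functions.
-/

open MeasureTheory Filter Matrix
open scoped Topology

noncomputable section

namespace Vale.Agent.P166.Soft

open Pattern (gauss)

/-- uniform limits on `[-2, 2]` of the rational spectral functions -/
def RatLim (φ : ℝ → ℝ) : Prop :=
  ∀ ε : ℝ, 0 < ε → ∃ (α s : ℝ) (q : ℕ) (a c : Fin q → ℝ), 0 ≤ s ∧ (∀ j, 0 ≤ c j ∧ 2 < a j) ∧
    ∀ x ∈ Set.Icc (-2:ℝ) 2, |φ x - phi α s a c x| ≤ ε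

lemma cl_two_mem (x : ℝ) : cl 2 x ∈ Set.Icc (-2:ℝ) 2 := abs_le.1 (abs_cl zero_le_two x)

lemma rat_props {q : ℕ} {a c : Fin q → ℝ} {α s : ℝ} (hs : 0 ≤ s) (h : ∀ j, 0 ≤ c j ∧ 2 < a j) :
    Continuous (fun x => phi α s a c (cl 2 x)) ∧ Monotone (fun x => phi α s a c (cl 2 x)) :=
  ⟨continuous_psi zero_le_two fun j => (h j).2, mono_psi hs (fun j => (h j).1) zero_le_two fun j => (h j).2⟩

lemma RatLim.props {φ : ℝ → ℝ} (h : RatLim φ) :
    Continuous (fun x => φ (cl 2 x)) ∧ Monotone (fun x => φ (cl 2 x)) := by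
  refine ⟨Metric.continuous_iff.2 fun x ε hε => ?_, fun x y hxy => le_of_forall_pos_le_add fun ε hε => ?_⟩
  · obtain ⟨α, s, q, a, c, hs, hac, hb⟩ := h (ε / 3) (by linarith)
    obtain ⟨δ, hδ, hd⟩ := Metric.continuous_iff.1 (rat_props (α := α) hs hac).1 x (ε / 3) (by linarith)
    refine ⟨δ, hδ, fun y hy => ?_⟩
    have h1 := abs_le.1 (hb _ (cl_two_mem x))
    have h2 := abs_le.1 (hb _ (cl_two_mem y))
    have h3 := hd y hy
    rw [Real.dist_eq, abs_lt] at h3 ⊢
    constructor <;> linarith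
  · obtain ⟨α, s, q, a, c, hs, hac, hb⟩ := h (ε / 2) (by linarith)
    have h1 := abs_le.1 (hb _ (cl_two_mem x))
    have h2 := abs_le.1 (hb _ (cl_two_mem y))
    have h3 := (rat_props (α := α) hs hac).2 hxy
    simp only at h3 ⊢
    linarith

variable {ν : Measure ℝ} [IsProbabilityMeasure ν]

/-- images of admissible spectra of the semicircle law -/
lemma image_admissible (hν : IsCompact ν.support) (htop : sSup ν.support = 2) (hbot : sInf ν.support = -2)
    {f : ℝ → ℝ} (hc : Continuous fun x => f (cl 2 x)) (hm : Monotone fun x => f (cl 2 x))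
    {lam : ∀ N : ℕ, Fin N → ℝ} (hl : Admissible ν lam) :
    IsProbabilityMeasure (ν.map f) ∧ IsCompact (ν.map f).support ∧
      Admissible (ν.map f) fun N k => f (cl 2 (lam N k)) := by
  set ψ := fun x => f (cl 2 x)
  have hmem : ∀ᵐ x ∂ν, -2 ≤ x ∧ x ≤ 2 := by
    filter_upwards [Measure.support_mem_ae (μ := ν)] with x hx
    exact ⟨hbot ▸ csInf_le hν.bddBelow hx, htop ▸ le_csSup hν.bddAbove hx⟩
  have e : ν.map f = ν.map ψ :=
    Measure.map_congr (hmem.mono fun x hx => by simp only [ψ, cl_of_abs_le (abs_le.2 hx)])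
  rw [e]
  have hp : IsProbabilityMeasure (ν.map ψ) := Measure.isProbabilityMeasure_map hc.measurable.aemeasurable
  have hsub : (ν.map ψ).support ⊆ Set.Icc (ψ (-2)) (ψ 2) := by
    refine Measure.support_subset_of_isClosed isClosed_Icc ?_
    refine (ae_map_iff hc.measurable.aemeasurable (p := fun y => y ∈ Set.Icc (ψ (-2)) (ψ 2)) measurableSet_Icc).2 ?_
    exact hmem.mono fun x hx => ⟨hm hx.1, hm hx.2⟩
  have himg : ∀ x ∈ ν.support, ψ x ∈ (ν.map ψ).support := fun x hx => by
    rw [Measure.mem_support_iff_forall] at hx ⊢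
    intro V hV
    exact lt_of_lt_of_le (hx (ψ ⁻¹' V) (hc.continuousAt.preimage_mem_nhds hV))
      (Measure.le_map_apply hc.measurable.aemeasurable _)
  have h2 := himg 2 (htop ▸ hν.sSup_mem support_nonempty)
  have h2' := himg (-2) (hbot ▸ hν.sInf_mem support_nonempty)
  have hsup : sSup (ν.map ψ).support = ψ 2 :=
    le_antisymm (csSup_le ⟨_, h2⟩ fun x hx => (hsub hx).2) (le_csSup (bddAbove_Icc.mono hsub) h2)
  have hinf : sInf (ν.map ψ).support = ψ (-2) :=
    le_antisymm (csInf_le (bddBelow_Icc.mono hsub) h2') (le_csInf ⟨_, h2⟩ fun x hx => (hsub hx).1)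
  refine ⟨hp, isCompact_Icc.of_isClosed_subset Measure.isClosed_support hsub, fun u => ?_, ?_, ?_⟩
  · have h := hl.1 (u.compContinuous ⟨ψ, hc⟩)
    rw [integral_map hc.measurable.aemeasurable u.continuous.aestronglyMeasurable]
    exact h
  · rw [hsup]
    refine ((hc.tendsto 2).comp (htop ▸ hl.2.1)).congr' ((eventually_gt_atTop 0).mono fun N hN => ?_)
    have : Nonempty (Fin N) := ⟨⟨0, hN⟩⟩
    exact hm.map_ciSup_of_continuousAt hc.continuousAt (Set.finite_range _).bddAbove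
  · rw [hinf]
    refine ((hc.tendsto (-2)).comp (hbot ▸ hl.2.2)).congr' ((eventually_gt_atTop 0).mono fun N hN => ?_)
    have : Nonempty (Fin N) := ⟨⟨0, hN⟩⟩
    exact hm.map_ciInf_of_continuousAt hc.continuousAt (Set.finite_range _).bddBelow

lemma pressure_close {N : ℕ} (hN : 0 < N) {β d : ℝ} (hβ : 0 ≤ β) {u v : Fin N → ℝ} (h : ∀ k, |u k - v k| ≤ d)
    {U : Mat N} (hU : Matrix.of U ∈ Matrix.orthogonalGroup (Fin N) ℝ) :
    |pressure β u U - pressure β v U| ≤ β * d / 2 := by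
  have h1 := (pressure_mono hβ (lam := u) (lam' := fun k => v k + d)
    (fun k => by linarith [(abs_le.1 (h k)).2]) U).trans_eq (pressure_shift hN β d v hU)
  have h2 := (pressure_mono hβ (lam := v) (lam' := fun k => u k + d)
    (fun k => by linarith [(abs_le.1 (h k)).1]) U).trans_eq (pressure_shift hN β d u hU)
  rw [abs_le]
  constructor <;> linarith

/-- **the limit exists at every temperature for uniform limits** -/
theorem ratlim_limit (hν : IsCompact ν.support)
    (heq : ∀ᶠ w : ℝ in atTop, w = 1 / (∫ x, 1 / (w - x) ∂ν) + (∫ x, 1 / (w - x) ∂ν))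
    {φ : ℝ → ℝ} (hφ : RatLim φ) :
    (∃ lam, Admissible (ν.map φ) lam) ∧
      ∀ β : ℝ, 0 ≤ β → ∃ p : ℝ, ∀ lam : ∀ N : ℕ, Fin N → ℝ, Admissible (ν.map φ) lam →
        ∀ H : ∀ N : ℕ, Measure (Mat N), (∀ N, IsHaarOrthogonal (H N)) → ∀ ε : ℝ, 0 < ε →
          Tendsto (fun N : ℕ => (H N).real {U | ε ≤ |pressure β (lam N) U - p|}) atTop (𝓝 0) := by
  obtain ⟨ν', hp', hc', htop, hbot, he', G, hGm, hG1, hGa⟩ := semicircle_good
  have := semicircle_unique hν hc' heq he'
  subst this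
  obtain ⟨g, hg, -⟩ := exists_instance hG1 (Ψ := fun _ _ => 0) (fun _ _ => le_rfl)
    (fun _ => integrable_zero _ _ _) (by simp)
  choose lam0 Q hQ hW using fun N => exists_eig_goe (g N)
  have hl0 := hGa g lam0 Q hg hQ hW
  obtain ⟨hc, hm⟩ := hφ.props
  obtain ⟨hμp, hμc, hadm⟩ := image_admissible hν htop hbot hc hm hl0
  refine ⟨⟨_, hadm⟩, fun β hβ => ?_⟩
  set e := fun n : ℕ => 1 / ((n:ℝ) + 1)
  have he0 : ∀ n, 0 < e n := fun n => by positivity
  choose α s q a c hs hac hb using fun n => hφ (e n) (he0 n)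
  have hlim := fun n => (image_limit (q := q n) (a := a n) (c := c n) hν heq (α n) (hs n)
    (fun j => (hac n j).1) fun j => (hac n j).2).2.2.2 β hβ
  choose pn hpn using hlim
  set u := fun (n N : ℕ) (k : Fin N) => phi (α n) (s n) (a n) (c n) (cl 2 (lam0 N k))
  set v := fun (N : ℕ) (k : Fin N) => φ (cl 2 (lam0 N k))
  have hun : ∀ n, Admissible (ν.map (phi (α n) (s n) (a n) (c n))) (u n) := fun n =>
    (image_admissible hν htop hbot (rat_props (hs n) (hac n)).1 (rat_props (hs n) (hac n)).2 hl0).2.2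
  have hclose : ∀ (n N : ℕ) (U : Mat N), 0 < N → Matrix.of U ∈ Matrix.orthogonalGroup (Fin N) ℝ →
      |pressure β (v N) U - pressure β (u n N) U| ≤ β * e n / 2 := fun n N U hN hU =>
    pressure_close hN hβ (fun k => hb n _ (cl_two_mem _)) hU
  choose H0 hH0 using exists_haar
  have hgood : ∀ n, ∀ δ : ℝ, 0 < δ → Tendsto (fun N : ℕ => (H0 N).real
      {U | δ ≤ |pressure β (u n N) U - pn n|}) atTop (𝓝 0) := fun n δ hδ => hpn n _ (hun n) H0 hH0 δ hδ
  have hdist : ∀ n m, |pn n - pn m| ≤ β * e n / 2 + β * e m / 2 := fun n m => by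
    refine le_of_forall_pos_le_add fun δ hδ => ?_
    obtain ⟨N, h1, hN⟩ := (((hgood n (δ / 2) (half_pos hδ)).add (hgood m (δ / 2) (half_pos hδ))).eventually
      (eventually_lt_nhds (show (0:ℝ) + 0 < 1 by norm_num)) |>.and (eventually_gt_atTop 0)).exists
    have := (hH0 N).1
    set A := {U : Mat N | δ / 2 ≤ |pressure β (u n N) U - pn n|}
    set B := {U : Mat N | δ / 2 ≤ |pressure β (u m N) U - pn m|}
    obtain ⟨U, hU, hUA, hUB⟩ : ∃ U, Matrix.of U ∈ Matrix.orthogonalGroup (Fin N) ℝ ∧ U ∉ A ∧ U ∉ B := by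
      by_contra hcon
      push Not at hcon
      have h2 : ∀ᵐ U ∂H0 N, U ∈ A ∪ B := (hH0 N).2.1.mono fun U hU => by
        by_cases hA : U ∈ A
        · exact Or.inl hA
        · exact Or.inr (hcon U hU hA)
      have h3 : (H0 N).real (A ∪ B) = 1 := by
        rw [measureReal_congr (ae_eq_univ.2 h2 : (A ∪ B : Set (Mat N)) =ᵐ[H0 N] Set.univ), probReal_univ]
      linarith [measureReal_union_le (μ := H0 N) A B]
    simp only [A, B, Set.mem_ofPred_eq, not_le] at hUA hUB
    have a1 := abs_lt.1 hUA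
    have a2 := abs_lt.1 hUB
    have a3 := abs_le.1 (hclose n N U hN hU)
    have a4 := abs_le.1 (hclose m N U hN hU)
    rw [abs_le]
    constructor <;> linarith
  have he1 : Tendsto (fun n => β * e n / 2) atTop (𝓝 0) := by
    simpa [e] using ((tendsto_one_div_add_atTop_nhds_zero_nat (𝕜 := ℝ)).const_mul β).div_const 2
  have hcauchy : CauchySeq pn := by
    rw [Metric.cauchySeq_iff]
    intro ε hε
    obtain ⟨n0, h0⟩ := eventually_atTop.1 (he1.eventually (eventually_lt_nhds (half_pos hε)))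
    exact ⟨n0, fun m hm n hn => by rw [Real.dist_eq]; linarith [hdist m n, h0 m hm, h0 n hn]⟩
  obtain ⟨p, hp⟩ := cauchySeq_tendsto_of_complete hcauchy
  refine ⟨p, fun lam hlam H hH ε hε => prob_transfer hμc hadm hlam hβ hH (fun δ hδ => ?_) hε⟩
  obtain ⟨n, h1, h2⟩ := ((he1.eventually (eventually_lt_nhds (show (0:ℝ) < δ / 4 by linarith))).and
    (Metric.tendsto_nhds.1 hp (δ / 4) (by linarith))).exists
  rw [Real.dist_eq] at h2
  refine squeeze_zero' (.of_forall fun N => measureReal_nonneg) ?_ (hpn n _ (hun n) H hH (δ / 2) (half_pos hδ))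
  filter_upwards [eventually_gt_atTop 0] with N hN
  have := (hH N).1
  refine ENNReal.toReal_mono (measure_ne_top _ _) (measure_mono_ae ((hH N).2.1.mono fun U hU hd => ?_))
  show δ / 2 ≤ |pressure β (u n N) U - pn n|
  have a1 := abs_sub_le (pressure β (v N) U) (pressure β (u n N) U) p
  have a2 := abs_sub_le (pressure β (u n N) U) (pn n) p
  have a3 := hclose n N U hN hU
  have a4 : δ ≤ |pressure β (v N) U - p| := hd
  linarith

end Vale.Agent.P166.Soft
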