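import Vale.Agent.P166.Pattern.Interp

/-!
Comparison and concentration of log partition functions of Gaussian fields on a finite set.
-/

open MeasureTheory ProbabilityTheory Filter Set
open scoped Topology

noncomputable section

namespace Vale.Agent.P166.Soft

open Pattern (gauss Poly lin cov phi ct Smooth2 eq_of_cov hasDerivAt_phi continuousOn_phi phi_zero phi_one)

variable {S κ κ' : Type*} [Fintype S] [Nonempty S] [Fintype κ] [Fintype κ']

/-- log partition function -/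
def lse (w : S → ℝ) (y : S → ℝ) : ℝ := Real.log (∑ σ, w σ * Real.exp (y σ))

/-- Gibbs weight -/
def gib (w : S → ℝ) (σ : S) (y : S → ℝ) : ℝ := w σ * Real.exp (y σ) / ∑ τ, w τ * Real.exp (y τ)

open Classical in
/-- derivative of the Gibbs weight -/
def gib2 (w : S → ℝ) (σ τ : S) (y : S → ℝ) : ℝ :=
  (if σ = τ then gib w σ y else 0) - gib w σ y * gib w τ y

variable {w : S → ℝ}

lemma z_pos (hw : ∀ σ, 0 < w σ) (y : S → ℝ) : 0 < ∑ σ, w σ * Real.exp (y σ) :=
  Finset.sum_pos (fun σ _ => mul_pos (hw σ) (Real.exp_pos _)) Finset.univ_nonempty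

lemma gib_nonneg (hw : ∀ σ, 0 < w σ) (σ : S) (y : S → ℝ) : 0 ≤ gib w σ y :=
  (div_pos (mul_pos (hw σ) (Real.exp_pos _)) (z_pos hw y)).le

lemma sum_gib (hw : ∀ σ, 0 < w σ) (y : S → ℝ) : ∑ σ, gib w σ y = 1 := by
  simp only [gib, ← Finset.sum_div]; exact div_self (z_pos hw y).ne'

lemma gib_le_one (hw : ∀ σ, 0 < w σ) (σ : S) (y : S → ℝ) : gib w σ y ≤ 1 :=
  (Finset.single_le_sum (f := fun τ => gib w τ y) (fun τ _ => gib_nonneg hw τ y) (Finset.mem_univ σ)).trans_eq
    (sum_gib hw y)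

lemma cont_gib (hw : ∀ σ, 0 < w σ) (σ : S) : Continuous (gib w σ) := by
  unfold gib; exact Continuous.div (by fun_prop) (by fun_prop) fun y => (z_pos hw y).ne'

lemma abs_lse_le (hw : ∀ σ, 0 < w σ) (y : S → ℝ) : |lse w y| ≤ |Real.log (∑ σ, w σ)| + ‖y‖ := by
  have hW : 0 < ∑ σ, w σ := Finset.sum_pos (fun σ _ => hw σ) Finset.univ_nonempty
  have hy : ∀ σ, |y σ| ≤ ‖y‖ := fun σ => norm_le_pi_norm y σ
  have l1 := Real.log_le_log (z_pos hw y) (Finset.sum_le_sum fun σ _ =>
    mul_le_mul_of_nonneg_left (Real.exp_le_exp.2 (abs_le.1 (hy σ)).2) (hw σ).le)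
  have l2 := Real.log_le_log (mul_pos hW (Real.exp_pos (-‖y‖)))
    (show (∑ σ, w σ) * Real.exp (-‖y‖) ≤ ∑ σ, w σ * Real.exp (y σ) by
      rw [Finset.sum_mul]
      exact Finset.sum_le_sum fun σ _ => mul_le_mul_of_nonneg_left (Real.exp_le_exp.2 (abs_le.1 (hy σ)).1) (hw σ).le)
  rw [← Finset.sum_mul, Real.log_mul hW.ne' (Real.exp_pos _).ne', Real.log_exp] at l1
  rw [Real.log_mul hW.ne' (Real.exp_pos _).ne', Real.log_exp] at l2
  rw [abs_le, lse]
  constructor <;> linarith [le_abs_self (Real.log (∑ σ, w σ)), neg_abs_le (Real.log (∑ σ, w σ))]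

lemma poly_lse (hw : ∀ σ, 0 < w σ) : Poly (lse w) :=
  ⟨|Real.log (∑ σ, w σ)| + 1, 1, fun y => by
    have := abs_lse_le hw y
    nlinarith [norm_nonneg y, abs_nonneg (Real.log (∑ σ, w σ))]⟩

lemma poly_gib (hw : ∀ σ, 0 < w σ) (σ : S) : Poly (gib w σ) :=
  Poly.of_bound 1 fun y => by rw [abs_of_nonneg (gib_nonneg hw σ y)]; exact gib_le_one hw σ y

lemma poly_gib2 (hw : ∀ σ, 0 < w σ) (σ τ : S) : Poly (gib2 w σ τ) := by
  unfold gib2
  refine Poly.sub ?_ ((poly_gib hw σ).mul (poly_gib hw τ))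
  by_cases h : σ = τ
  · simp only [h, if_true]; exact poly_gib hw τ
  · simp only [h, if_false]; exact Pattern.Poly.const 0

lemma cont_gib2 (hw : ∀ σ, 0 < w σ) (σ τ : S) : Continuous (gib2 w σ τ) := by
  unfold gib2
  refine Continuous.sub ?_ ((cont_gib hw σ).mul (cont_gib hw τ))
  by_cases h : σ = τ
  · simp only [h, if_true]; exact cont_gib hw τ
  · simp only [h, if_false]; exact continuous_const

lemma smooth_lse (hw : ∀ σ, 0 < w σ) : Smooth2 (lse w) (gib w) (gib2 w) := by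
  classical
  have hE : ∀ (σ : S) y, HasFDerivAt (fun y : S → ℝ => w σ * Real.exp (y σ))
      ((w σ * Real.exp (y σ)) • (ContinuousLinearMap.proj σ : (S → ℝ) →L[ℝ] ℝ)) y := fun σ y =>
    ((hasFDerivAt_apply σ y).exp.const_mul (w σ)).congr_fderiv (by rw [smul_smul])
  have hZ : ∀ y, HasFDerivAt (fun y : S → ℝ => ∑ σ, w σ * Real.exp (y σ))
      (∑ σ, (w σ * Real.exp (y σ)) • (ContinuousLinearMap.proj σ : (S → ℝ) →L[ℝ] ℝ)) y := fun y =>
    HasFDerivAt.fun_sum fun σ _ => hE σ y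
  refine ⟨fun y => ?_, fun σ y => ?_, cont_gib2 hw, poly_lse hw, poly_gib hw, poly_gib2 hw⟩
  · refine ((hZ y).log (z_pos hw y).ne').congr_fderiv ?_
    rw [Finset.smul_sum]
    exact Finset.sum_congr rfl fun σ _ => by rw [smul_smul, gib, div_eq_inv_mul]
  · have hne := (z_pos hw y).ne'
    have h : HasFDerivAt (gib w σ) _ y :=
      ((hE σ y).fun_mul ((hasDerivAt_inv hne).comp_hasFDerivAt y (hZ y))).congr_of_eventuallyEq
        (.of_forall fun z => by simp [gib, div_eq_mul_inv])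
    refine h.congr_fderiv (ContinuousLinearMap.ext fun u => ?_)
    simp only [Function.comp, add_apply, smul_apply, sum_apply,
      ContinuousLinearMap.proj_apply, smul_eq_mul, gib2, sub_mul, ite_mul, zero_mul,
      Finset.sum_sub_distrib, Finset.sum_ite_eq, Finset.mem_univ, if_true, gib, Finset.mul_sum]
    rw [sub_eq_add_neg, add_comm, ← Finset.sum_neg_distrib]
    refine congrArg₂ (· + ·) (by field_simp) (Finset.sum_congr rfl fun τ _ => ?_)
    field_simp

lemma integrable_lse (hw : ∀ σ, 0 < w σ) (c : S → κ → ℝ) : Integrable (fun x => lse w (lin c x)) (gauss κ) :=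
  Pattern.integrable_lin c (smooth_lse hw).cont (poly_lse hw)

lemma mp_sum : MeasurePreserving (MeasurableEquiv.sumPiEquivProdPi (fun _ : κ ⊕ κ' => ℝ))
    (gauss (κ ⊕ κ')) ((gauss κ).prod (gauss κ')) :=
  measurePreserving_sumPiEquivProdPi (X := fun _ : κ ⊕ κ' => ℝ) (fun _ => gaussianReal 0 1)

/-- independent noises are dominated by their annealed weights -/
lemma jensen_noise (hw : ∀ σ, 0 < w σ) (b : S → κ → ℝ) (e : S → ℝ) (he : ∀ σ, 0 ≤ e σ)
    (pad : S → κ ⊕ S → ℝ)
    (hpad : ∀ σ x, lin pad x σ = lin b (fun k => x (Sum.inl k)) σ + √(e σ) * x (Sum.inr σ)) :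
    ∫ x, lse w (lin pad x) ∂gauss (κ ⊕ S) ≤
      ∫ x, lse (fun σ => w σ * Real.exp (e σ / 2)) (lin b x) ∂gauss κ := by
  classical
  set w' := fun σ => w σ * Real.exp (e σ / 2)
  have hw' : ∀ σ, 0 < w' σ := fun σ => mul_pos (hw σ) (Real.exp_pos _)
  set E := MeasurableEquiv.sumPiEquivProdPi (fun _ : κ ⊕ S => ℝ)
  have hmp := (mp_sum (κ := κ) (κ' := S)).symm E
  set f := fun x : κ ⊕ S → ℝ => lse w (lin pad x)
  have hf : Integrable f (gauss (κ ⊕ S)) := integrable_lse hw pad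
  have hg : Integrable (fun p => f (E.symm p)) ((gauss κ).prod (gauss S)) :=
    (hmp.integrable_comp hf.aestronglyMeasurable).2 hf
  rw [show ∫ x, f x ∂gauss (κ ⊕ S) = ∫ p, f (E.symm p) ∂((gauss κ).prod (gauss S)) from
    (hmp.integral_comp E.symm.measurableEmbedding _).symm, integral_prod _ hg]
  refine integral_mono hg.integral_prod_left (integrable_lse hw' b) fun x => ?_
  set a := fun σ => w σ * Real.exp (lin b x σ)
  have hfv : ∀ z, f (E.symm (x, z)) = Real.log (∑ σ, a σ * Real.exp (√(e σ) * z σ)) := fun z => by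
    simp only [f, lse, hpad, a, Real.exp_add, mul_assoc]
    rfl
  set Y := fun z : S → ℝ => ∑ σ, a σ * Real.exp (√(e σ) * z σ)
  set m := ∑ σ, w' σ * Real.exp (lin b x σ)
  have hm : 0 < m := z_pos hw' _
  have hi : ∀ σ, Integrable (fun z : S → ℝ => Real.exp (√(e σ) * z σ)) (gauss S) ∧
      ∫ z, Real.exp (√(e σ) * z σ) ∂gauss S = Real.exp (e σ / 2) := fun σ => by
    have h := measurePreserving_eval (fun _ : S => gaussianReal 0 1) σ
    refine ⟨(h.integrable_comp (by fun_prop : Continuous fun t => Real.exp (√(e σ) * t)).aestronglyMeasurable).2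
      (integrable_exp_mul_gaussianReal _), ?_⟩
    have h2 := congrFun (mgf_id_gaussianReal (μ := (0:ℝ)) (v := 1)) (√(e σ))
    simp only [mgf, id_eq, zero_mul, zero_add, NNReal.coe_one, one_mul, Real.sq_sqrt (he σ)] at h2
    have h3 : ∫ z, Real.exp (√(e σ) * z σ) ∂gauss S = ∫ t, Real.exp (√(e σ) * t) ∂gaussianReal 0 1 := by
      have e2 : gaussianReal 0 1 = (gauss S).map fun z => z σ := h.map_eq.symm
      rw [e2, integral_map h.measurable.aemeasurable (by fun_prop)]
    rw [h3, h2]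
  have hY : Integrable Y (gauss S) := integrable_finsetSum _ fun σ _ => (hi σ).1.const_mul _
  have hYv : ∫ z, Y z ∂gauss S = m := by
    simp only [Y]
    rw [integral_finsetSum _ fun σ _ => (hi σ).1.const_mul _]
    exact Finset.sum_congr rfl fun σ _ => by rw [integral_const_mul, (hi σ).2]; simp only [a, w']; ring
  have hL : Integrable (fun z => Real.log (Y z)) (gauss S) :=
    (integrable_lse (w := a) (fun σ => mul_pos (hw σ) (Real.exp_pos _))
      (fun σ k => if k = σ then √(e σ) else 0)).congr (.of_forall fun z => by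
        simp [lse, lin, Y, ite_mul])
  show ∫ z, f (E.symm (x, z)) ∂gauss S ≤ Real.log m
  simp only [hfv]
  refine (integral_mono hL ((hY.div_const m).add (integrable_const (Real.log m - 1))) fun z => ?_).trans
    (le_of_eq ?_)
  · have hp : 0 < Y z := z_pos (fun σ => mul_pos (hw σ) (Real.exp_pos _)) _
    have := Real.log_le_sub_one_of_pos (div_pos hp hm)
    rw [Real.log_div hp.ne' hm.ne'] at this
    simp only [Pi.add_apply]
    show Real.log (Y z) ≤ _
    linarith
  · rw [integral_add' (hY.div_const m) (integrable_const _), integral_div, hYv, div_self hm.ne', integral_const]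
    simp

/-- smaller correlations off the diagonal and smaller variances give a larger mean log partition function,
once the loss of variance is compensated in the weights -/
theorem compare (hw : ∀ σ, 0 < w σ) (a : S → κ → ℝ) (b : S → κ' → ℝ) (e : S → ℝ) (he : ∀ σ, 0 ≤ e σ)
    (hdiag : ∀ σ, cov a σ σ = cov b σ σ + e σ) (hoff : ∀ σ τ, σ ≠ τ → cov b σ τ ≤ cov a σ τ) :
    ∫ x, lse w (lin a x) ∂gauss κ ≤ ∫ x, lse (fun σ => w σ * Real.exp (e σ / 2)) (lin b x) ∂gauss κ' := by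
  classical
  set pad : S → κ' ⊕ S → ℝ := fun σ => Sum.elim (b σ) fun τ => if τ = σ then √(e σ) else 0
  set c0 : S → κ ⊕ (κ' ⊕ S) → ℝ := fun σ => Sum.elim (a σ) fun _ => 0
  set c1 : S → κ ⊕ (κ' ⊕ S) → ℝ := fun σ => Sum.elim (fun _ => 0) (pad σ)
  have hs := smooth_lse hw
  have hpcov : ∀ σ τ, cov pad σ τ = cov b σ τ + if σ = τ then e σ else 0 := fun σ τ => by
    simp only [cov, pad, Fintype.sum_sum_type, Sum.elim_inl, Sum.elim_inr]
    by_cases h : σ = τ
    · subst h; simp [Real.mul_self_sqrt (he σ)]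
    · simp [h, Ne.symm h]
  have e0 : ∫ x, lse w (lin c0 x) ∂gauss (κ ⊕ (κ' ⊕ S)) = ∫ x, lse w (lin a x) ∂gauss κ :=
    eq_of_cov hs c0 a fun σ τ => by simp [cov, c0, Fintype.sum_sum_type]
  have e1 : ∫ x, lse w (lin c1 x) ∂gauss (κ ⊕ (κ' ⊕ S)) = ∫ x, lse w (lin pad x) ∂gauss (κ' ⊕ S) :=
    eq_of_cov hs c1 pad fun σ τ => by simp [cov, c1, Fintype.sum_sum_type]
  have hΔ : ∀ σ τ, cov c1 σ τ - cov c0 σ τ = cov pad σ τ - cov a σ τ := fun σ τ => by
    simp [cov, c0, c1, Fintype.sum_sum_type]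
  have hmono : MonotoneOn (phi (lse w) c0 c1) (Icc (0:ℝ) 1) := by
    refine monotoneOn_of_hasDerivWithinAt_nonneg (convex_Icc 0 1) (continuousOn_phi hs)
      (f' := fun t => (1 / 2) * ∑ σ, ∑ τ, (cov c1 σ τ - cov c0 σ τ) *
        ∫ x, gib2 w σ τ (lin (ct c0 c1 t) x) ∂gauss _) ?_ ?_
    · intro t ht
      rw [interior_Icc] at ht
      exact (hasDerivAt_phi hs ht).hasDerivWithinAt
    · intro t _
      refine mul_nonneg (by norm_num) (Finset.sum_nonneg fun σ _ => Finset.sum_nonneg fun τ _ => ?_)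
      rw [hΔ, hpcov]
      by_cases h : σ = τ
      · subst h; simp [hdiag]
      · rw [if_neg h, add_zero]
        refine mul_nonneg_of_nonpos_of_nonpos (by linarith [hoff σ τ h]) (integral_nonpos fun x => ?_)
        simp only [gib2, if_neg h, zero_sub, Pi.zero_apply, Left.neg_nonpos_iff]
        exact mul_nonneg (gib_nonneg hw _ _) (gib_nonneg hw _ _)
  have h01 := hmono (left_mem_Icc.2 zero_le_one) (right_mem_Icc.2 zero_le_one) zero_le_one
  rw [phi_zero hs, phi_one hs, e0, e1] at h01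
  exact h01.trans (jensen_noise hw b e he pad fun σ x => by
    simp [lin, pad, Fintype.sum_sum_type, ite_mul])

/-- the variance of a log partition function is at most the largest covariance -/
theorem variance_lse (hw : ∀ σ, 0 < w σ) (c : S → κ → ℝ) {D : ℝ} (hD : ∀ σ τ, |cov c σ τ| ≤ D) :
    ∫ x, (lse w (lin c x) - ∫ y, lse w (lin c y) ∂gauss κ) ^ 2 ∂gauss κ ≤ D := by
  classical
  have hs := smooth_lse hw
  set K : (S ⊕ S → ℝ) → ℝ := fun y => lse w (fun σ => y (Sum.inl σ)) * lse w (fun σ => y (Sum.inr σ))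
  set K1 : S ⊕ S → (S ⊕ S → ℝ) → ℝ := fun i y => Sum.elim
    (fun σ => gib w σ (fun σ => y (Sum.inl σ)) * lse w (fun σ => y (Sum.inr σ)))
    (fun σ => lse w (fun σ => y (Sum.inl σ)) * gib w σ (fun σ => y (Sum.inr σ))) i
  set K2 : S ⊕ S → S ⊕ S → (S ⊕ S → ℝ) → ℝ := fun i j y => Sum.elim
    (fun σ => Sum.elim (fun τ => gib2 w σ τ (fun σ => y (Sum.inl σ)) * lse w (fun σ => y (Sum.inr σ)))
      (fun τ => gib w σ (fun σ => y (Sum.inl σ)) * gib w τ (fun σ => y (Sum.inr σ))) j)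
    (fun σ => Sum.elim (fun τ => gib w τ (fun σ => y (Sum.inl σ)) * gib w σ (fun σ => y (Sum.inr σ)))
      (fun τ => lse w (fun σ => y (Sum.inl σ)) * gib2 w σ τ (fun σ => y (Sum.inr σ))) j) i
  let L : (S ⊕ S → ℝ) →L[ℝ] (S → ℝ) := ContinuousLinearMap.pi fun σ => ContinuousLinearMap.proj (Sum.inl σ)
  let R : (S ⊕ S → ℝ) →L[ℝ] (S → ℝ) := ContinuousLinearMap.pi fun σ => ContinuousLinearMap.proj (Sum.inr σ)
  have pl : ∀ {F : (S → ℝ) → ℝ}, Poly F → Poly (fun y : S ⊕ S → ℝ => F (L y)) ∧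
      Poly (fun y : S ⊕ S → ℝ => F (R y)) := fun {F} hF => by
    constructor <;> refine hF.comp 1 fun y => ?_ <;> rw [one_mul] <;>
      refine ((pi_norm_le_iff_of_nonneg (norm_nonneg y)).2 fun σ => ?_).trans (le_add_of_nonneg_left zero_le_one) <;>
      exact norm_le_pi_norm y _
  have hcs : ∀ σ, Continuous (gib w σ) := cont_gib hw
  have hS : Smooth2 K K1 K2 := by
    refine ⟨fun y => ?_, fun i y => ?_, fun i j => ?_, ?_, fun i => ?_, fun i j => ?_⟩
    · refine ((hs.d1 (L y)).comp y L.hasFDerivAt).fun_mul ((hs.d1 (R y)).comp y R.hasFDerivAt) |>.congr_fderiv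
        (ContinuousLinearMap.ext fun u => ?_)
      simp [K1, L, R, Fintype.sum_sum_type, Finset.mul_sum]
      rw [add_comm]
      exact congrArg₂ (· + ·) (Finset.sum_congr rfl fun σ _ => by ring) (Finset.sum_congr rfl fun σ _ => by ring)
    · rcases i with σ | σ
      · refine ((hs.d2 σ (L y)).comp y L.hasFDerivAt).fun_mul ((hs.d1 (R y)).comp y R.hasFDerivAt) |>.congr_fderiv
          (ContinuousLinearMap.ext fun u => ?_)
        simp [K2, L, R, Fintype.sum_sum_type, Finset.mul_sum]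
        rw [add_comm]
        exact congrArg₂ (· + ·) (Finset.sum_congr rfl fun σ _ => by ring) (Finset.sum_congr rfl fun σ _ => by ring)
      · refine ((hs.d1 (L y)).comp y L.hasFDerivAt).fun_mul ((hs.d2 σ (R y)).comp y R.hasFDerivAt) |>.congr_fderiv
          (ContinuousLinearMap.ext fun u => ?_)
        simp [K2, L, R, Fintype.sum_sum_type, Finset.mul_sum]
        rw [add_comm]
        exact congrArg₂ (· + ·) (Finset.sum_congr rfl fun σ _ => by ring) (Finset.sum_congr rfl fun σ _ => by ring)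
    · rcases i with σ | σ <;> rcases j with τ | τ <;> simp only [K2, Sum.elim_inl, Sum.elim_inr]
      · exact ((hs.c2 σ τ).comp L.continuous).mul (hs.cont.comp R.continuous)
      · exact ((hcs σ).comp L.continuous).mul ((hcs τ).comp R.continuous)
      · exact ((hcs τ).comp L.continuous).mul ((hcs σ).comp R.continuous)
      · exact (hs.cont.comp L.continuous).mul ((hs.c2 σ τ).comp R.continuous)
    · exact (pl hs.p0).1.mul (pl hs.p0).2
    · rcases i with σ | σ <;> simp only [K1, Sum.elim_inl, Sum.elim_inr]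
      · exact (pl (hs.p1 σ)).1.mul (pl hs.p0).2
      · exact (pl hs.p0).1.mul (pl (hs.p1 σ)).2
    · rcases i with σ | σ <;> rcases j with τ | τ <;> simp only [K2, Sum.elim_inl, Sum.elim_inr]
      · exact (pl (hs.p2 σ τ)).1.mul (pl hs.p0).2
      · exact (pl (hs.p1 σ)).1.mul (pl (hs.p1 τ)).2
      · exact (pl (hs.p1 τ)).1.mul (pl (hs.p1 σ)).2
      · exact (pl hs.p0).1.mul (pl (hs.p2 σ τ)).2
  set c0 : S ⊕ S → κ ⊕ κ → ℝ := Sum.elim (fun σ => Sum.elim (c σ) fun _ => 0) (fun σ => Sum.elim (fun _ => 0) (c σ))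
  set c1 : S ⊕ S → κ ⊕ κ → ℝ := Sum.elim (fun σ => Sum.elim (c σ) fun _ => 0) (fun σ => Sum.elim (c σ) fun _ => 0)
  set m := ∫ y, lse w (lin c y) ∂gauss κ
  have hi := integrable_lse hw c
  have hsq : Integrable (fun x => lse w (lin c x) * lse w (lin c x)) (gauss κ) :=
    Pattern.integrable_lin c (hs.cont.mul hs.cont) (hs.p0.mul hs.p0)
  have hl : ∀ (x : κ ⊕ κ → ℝ), (fun σ => lin c0 x (Sum.inl σ)) = lin c (fun k => x (Sum.inl k)) ∧
      (fun σ => lin c0 x (Sum.inr σ)) = lin c (fun k => x (Sum.inr k)) ∧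
      (fun σ => lin c1 x (Sum.inl σ)) = lin c (fun k => x (Sum.inl k)) ∧
      (fun σ => lin c1 x (Sum.inr σ)) = lin c (fun k => x (Sum.inl k)) := fun x => by
    refine ⟨?_, ?_, ?_, ?_⟩ <;> funext σ <;> simp [lin, c0, c1, Fintype.sum_sum_type]
  have e1 : phi K c0 c1 1 = ∫ x, lse w (lin c x) * lse w (lin c x) ∂gauss κ := by
    rw [phi_one hS]
    simp only [K, fun x => (hl x).2.2.1, fun x => (hl x).2.2.2]
    exact Pattern.integral_inl (κ := κ) (κ' := κ) (F := fun z => lse w (lin c z) * lse w (lin c z))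
      ((hs.cont.comp (Pattern.continuous_lin c)).mul (hs.cont.comp (Pattern.continuous_lin c)))
  have e0 : phi K c0 c1 0 = m * m := by
    rw [phi_zero hS]
    simp only [K, fun x => (hl x).1, fun x => (hl x).2.1]
    have hmp := (mp_sum (κ := κ) (κ' := κ)).symm
    rw [← hmp.integral_comp (MeasurableEquiv.measurableEmbedding _)]
    exact integral_prod_mul (fun a => lse w (lin c a)) (fun b => lse w (lin c b))
  obtain ⟨u, hu, hslope⟩ := exists_hasDerivAt_eq_slope (phi K c0 c1) _ zero_lt_one (continuousOn_phi hS)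
    (fun u hu => hasDerivAt_phi hS hu)
  rw [e1, e0, sub_zero, div_one] at hslope
  have hvar : ∫ x, (lse w (lin c x) - m) ^ 2 ∂gauss κ =
      (∫ x, lse w (lin c x) * lse w (lin c x) ∂gauss κ) - m * m := by
    simp only [show ∀ x, (lse w (lin c x) - m) ^ 2 =
      lse w (lin c x) * lse w (lin c x) - (2 * m) * lse w (lin c x) + m * m from fun x => by ring]
    have i2 : Integrable (fun x => lse w (lin c x) * lse w (lin c x) - (2 * m) * lse w (lin c x)) (gauss κ) :=
      hsq.sub (hi.const_mul _)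
    rw [integral_add i2 (integrable_const _), integral_sub hsq (hi.const_mul _), integral_const_mul,
      integral_const, probReal_univ, one_smul]
    ring
  rw [hvar, ← hslope]
  set C := ct c0 c1 u
  have hc : ∀ σ τ, cov c1 (Sum.inl σ) (Sum.inl τ) - cov c0 (Sum.inl σ) (Sum.inl τ) = 0 ∧
      cov c1 (Sum.inr σ) (Sum.inr τ) - cov c0 (Sum.inr σ) (Sum.inr τ) = 0 ∧
      cov c1 (Sum.inl σ) (Sum.inr τ) - cov c0 (Sum.inl σ) (Sum.inr τ) = cov c σ τ ∧
      cov c1 (Sum.inr σ) (Sum.inl τ) - cov c0 (Sum.inr σ) (Sum.inl τ) = cov c σ τ := fun σ τ => by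
    refine ⟨?_, ?_, ?_, ?_⟩ <;> simp [cov, c0, c1, Fintype.sum_sum_type]
  simp only [Fintype.sum_sum_type, Finset.sum_add_distrib, fun σ τ => (hc σ τ).1, fun σ τ => (hc σ τ).2.1,
    fun σ τ => (hc σ τ).2.2.1, fun σ τ => (hc σ τ).2.2.2, zero_mul, Finset.sum_const_zero, zero_add, add_zero]
  have hD0 : 0 ≤ D := (abs_nonneg _).trans (hD (Classical.arbitrary S) (Classical.arbitrary S))
  have bnd : ∀ (f : S → S → (S ⊕ S → ℝ) → ℝ), (∀ σ τ, Continuous (f σ τ)) → (∀ σ τ, Poly (f σ τ)) →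
      (∀ σ τ y, 0 ≤ f σ τ y) → (∀ y, ∑ σ, ∑ τ, f σ τ y = 1) →
      ∑ σ, ∑ τ, cov c σ τ * ∫ x, f σ τ (lin C x) ∂gauss _ ≤ D := by
    intro f hf hp h0 h1
    have hi' : ∀ σ τ, Integrable (fun x => f σ τ (lin C x)) (gauss _) := fun σ τ =>
      Pattern.integrable_lin C (hf σ τ) (hp σ τ)
    refine (Finset.sum_le_sum fun σ _ => Finset.sum_le_sum fun τ _ =>
      mul_le_mul_of_nonneg_right ((le_abs_self _).trans (hD σ τ)) (integral_nonneg fun x => h0 σ τ _)).trans ?_
    simp only [← Finset.mul_sum]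
    refine le_of_eq ?_
    rw [Finset.sum_congr rfl fun σ _ => (integral_finsetSum _ fun τ _ => hi' σ τ).symm,
      ← integral_finsetSum _ fun σ _ => integrable_finsetSum _ fun τ _ => hi' σ τ]
    simp [h1]
  have b1 := bnd (fun σ τ y => gib w σ (L y) * gib w τ (R y))
    (fun σ τ => ((hcs σ).comp L.continuous).mul ((hcs τ).comp R.continuous))
    (fun σ τ => (pl (hs.p1 σ)).1.mul (pl (hs.p1 τ)).2)
    (fun σ τ y => mul_nonneg (gib_nonneg hw _ _) (gib_nonneg hw _ _))
    (fun y => by simp only [← Finset.mul_sum, sum_gib hw, mul_one])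
  have b2 := bnd (fun σ τ y => gib w τ (L y) * gib w σ (R y))
    (fun σ τ => ((hcs τ).comp L.continuous).mul ((hcs σ).comp R.continuous))
    (fun σ τ => (pl (hs.p1 τ)).1.mul (pl (hs.p1 σ)).2)
    (fun σ τ y => mul_nonneg (gib_nonneg hw _ _) (gib_nonneg hw _ _))
    (fun y => by
      rw [Finset.sum_comm]
      simp only [← Finset.mul_sum, sum_gib hw, mul_one])
  change _ ≤ _ at b1
  have e : ∀ x, (L (lin C x) = fun σ => lin C x (Sum.inl σ)) ∧ (R (lin C x) = fun σ => lin C x (Sum.inr σ)) :=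
    fun x => ⟨rfl, rfl⟩
  simp only [fun x => (e x).1, fun x => (e x).2] at b1 b2
  simp only [K2, Sum.elim_inl, Sum.elim_inr]
  linarith

end Vale.Agent.P166.Soft
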