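import Vale.Agent.P166.Defs
import Vale.Agent.P166.Pattern.Interp

/-!
Functions of a Gaussian orthogonal ensemble: the matrix and the class of spectral functions.
-/

open MeasureTheory
open scoped Topology

noncomputable section

namespace Vale.Agent.P166.Soft

/-- the Gaussian orthogonal ensemble built from an array of independent standard Gaussians -/
def goe {N : ℕ} (g : Fin N × Fin N → ℝ) : Matrix (Fin N) (Fin N) ℝ :=
  Matrix.of fun i k => (g (i, k) + g (k, i)) / √(2 * (N : ℝ))

end Vale.Agent.P166.Soft
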