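import Mathlib

/-!
Riemann sums of Gaussian integrals on the lattice `h ℤ^N`, cut to a ball of radius of order `√N`.
-/

open MeasureTheory Set Real
open scoped Topology

noncomputable section

namespace Vale.Agent.P166.Soft

variable {N : ℕ}

/-- the radius of the box containing the lattice ball -/
def radius (K h : ℝ) (N : ℕ) : ℕ := ⌈√(K * N) / h⌉₊

/-- lattice points of a ball -/
def grid (K h : ℝ) (N : ℕ) : Finset (Fin N → ℤ) :=
  (Fintype.piFinset fun _ : Fin N => Finset.Icc (-(radius K h N : ℤ)) (radius K h N)).filter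
    fun k => ∑ i, (h * (k i : ℝ)) ^ 2 ≤ K * N

lemma mem_grid {K h : ℝ} (hh : 0 < h) {k : Fin N → ℤ} :
    k ∈ grid K h N ↔ ∑ i, (h * (k i : ℝ)) ^ 2 ≤ K * N := by
  refine ⟨fun hk => (Finset.mem_filter.1 hk).2, fun hk => Finset.mem_filter.2 ⟨?_, hk⟩⟩
  refine Fintype.mem_piFinset.2 fun i => Finset.mem_Icc.2 (abs_le.1 ?_)
  have h1 : (h * (k i : ℝ)) ^ 2 ≤ K * N :=
    (Finset.single_le_sum (f := fun i => (h * (k i : ℝ)) ^ 2) (fun _ _ => sq_nonneg _) (Finset.mem_univ i)).trans hk
  have h2 : |(k i : ℝ)| * h ≤ √(K * N) := by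
    refine Real.le_sqrt_of_sq_le ?_
    rw [mul_pow, sq_abs, ← mul_pow, mul_comm]; exact h1
  have h3 : |(k i : ℝ)| ≤ (radius K h N : ℝ) := ((le_div_iff₀ hh).2 h2).trans (Nat.le_ceil _)
  exact_mod_cast h3

/-- the cell of a lattice point -/
def cell (h : ℝ) (k : Fin N → ℤ) : Set (Fin N → ℝ) :=
  univ.pi fun i => Ico (h * k i - h / 2) (h * k i + h / 2)

lemma measurableSet_cell (h : ℝ) (k : Fin N → ℤ) : MeasurableSet (cell h k) :=
  MeasurableSet.univ_pi fun _ => measurableSet_Ico

lemma volume_cell {h : ℝ} (hh : 0 ≤ h) (k : Fin N → ℤ) : volume.real (cell h k) = h ^ N := by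
  rw [measureReal_def, cell, Real.volume_pi_Ico_toReal fun i => by linarith]
  simp

lemma cell_near {h : ℝ} {k : Fin N → ℤ} {y : Fin N → ℝ} (hy : y ∈ cell h k) (i : Fin N) :
    |y i - h * k i| ≤ h / 2 := by
  have := hy i (mem_univ i)
  exact abs_le.2 ⟨by linarith [this.1], by linarith [this.2]⟩

lemma mem_cell_floor {h : ℝ} (hh : 0 < h) (y : Fin N → ℝ) : y ∈ cell h fun i => ⌊y i / h + 1 / 2⌋ := by
  intro i _
  have h1 := mul_le_mul_of_nonneg_left (Int.floor_le (y i / h + 1 / 2)) hh.le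
  have h2 := mul_lt_mul_of_pos_left (Int.lt_floor_add_one (y i / h + 1 / 2)) hh
  have e : h * (y i / h + 1 / 2) = y i + h / 2 := by field_simp
  rw [e] at h1 h2
  constructor <;> linarith

lemma cell_disjoint {h : ℝ} (hh : 0 < h) {k l : Fin N → ℤ} (hkl : k ≠ l) :
    Disjoint (cell h k) (cell h l) := by
  rw [Set.disjoint_left]
  intro y hk hl
  refine hkl (funext fun i => ?_)
  have a := hk i (mem_univ i)
  have b := hl i (mem_univ i)
  have h1 : h * ((k i - l i : ℤ) : ℝ) < h * 1 := by push_cast; linarith [a.1, b.2]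
  have h2 : h * ((l i - k i : ℤ) : ℝ) < h * 1 := by push_cast; linarith [b.1, a.2]
  have i1 : (k i - l i : ℤ) < 1 := by exact_mod_cast lt_of_mul_lt_mul_left h1 hh.le
  have i2 : (l i - k i : ℤ) < 1 := by exact_mod_cast lt_of_mul_lt_mul_left h2 hh.le
  omega

/-- exponent of a Gaussian integral in a rotated frame -/
def quad (Q : Matrix (Fin N) (Fin N) ℝ) (a v y : Fin N → ℝ) : ℝ :=
  -(1 / 2) * ∑ k, a k * Q.mulVec y k ^ 2 + ∑ i, v i * y i

lemma sum_sq_mulVec {Q : Matrix (Fin N) (Fin N) ℝ} (hQ : Q ∈ Matrix.orthogonalGroup (Fin N) ℝ) (u v : Fin N → ℝ) :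
    ∑ k, Q.mulVec u k * Q.mulVec v k = ∑ i, u i * v i := by
  have h := (Matrix.mem_orthogonalGroup_iff' (Fin N) ℝ).1 hQ
  have e : ∀ i j, ∑ k, Q k i * Q k j = if i = j then 1 else 0 := fun i j => by
    have := congrFun (congrFun h i) j
    simpa [Matrix.mul_apply, Matrix.transpose_apply, Matrix.one_apply] using this
  simp only [Matrix.mulVec, dotProduct, Finset.sum_mul_sum]
  rw [Finset.sum_comm]
  refine Finset.sum_congr rfl fun i _ => ?_
  rw [Finset.sum_comm]
  calc ∑ j, ∑ k, Q k i * u i * (Q k j * v j) = ∑ j, u i * v j * ∑ k, Q k i * Q k j :=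
        Finset.sum_congr rfl fun j _ => by
          rw [Finset.mul_sum]; exact Finset.sum_congr rfl fun k _ => by ring
    _ = _ := by simp [e]

lemma mp_mulVec {Q : Matrix (Fin N) (Fin N) ℝ} (hQ : Q ∈ Matrix.orthogonalGroup (Fin N) ℝ) :
    MeasurePreserving (fun y : Fin N → ℝ => Q.mulVec y) volume volume := by
  have h := congrArg Matrix.det ((Matrix.mem_orthogonalGroup_iff (Fin N) ℝ).1 hQ)
  simp only [Matrix.det_mul, Matrix.det_one, Matrix.det_transpose] at h
  have hne : Q.det ≠ 0 := fun h0 => by simp [h0] at h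
  have habs : |Q.det⁻¹| = 1 := by
    rw [abs_inv]
    nlinarith [abs_mul_abs_self Q.det, abs_nonneg Q.det, inv_mul_cancel₀ (abs_ne_zero.2 hne)]
  refine ⟨(Continuous.matrix_mulVec continuous_const continuous_id).measurable, ?_⟩
  have := Real.map_matrix_volume_pi_eq_smul_volume_pi hne
  simp only [habs, ENNReal.ofReal_one, one_smul] at this
  rw [← show ⇑(Matrix.toLin' Q) = fun y => Q.mulVec y from funext fun y => Matrix.toLin'_apply Q y]
  exact this

lemma integral_one_dim {a : ℝ} (ha : 0 < a) (b : ℝ) :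
    Integrable (fun x : ℝ => rexp (-(a / 2) * x ^ 2 + b * x)) ∧
      ∫ x : ℝ, rexp (-(a / 2) * x ^ 2 + b * x) = √(2 * π / a) * rexp (b ^ 2 / (2 * a)) := by
  have e : ∀ x : ℝ, rexp (-(a / 2) * x ^ 2 + b * x) =
      rexp (b ^ 2 / (2 * a)) * rexp (-(a / 2) * (x - b / a) ^ 2) := fun x => by
    rw [← Real.exp_add]; congr 1; field_simp; ring
  simp only [e]
  refine ⟨((integrable_exp_neg_mul_sq (half_pos ha)).comp_sub_right (b / a)).const_mul _, ?_⟩
  rw [integral_const_mul, integral_sub_right_eq_self (fun x => rexp (-(a / 2) * x ^ 2)) (b / a),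
    integral_gaussian, show π / (a / 2) = 2 * π / a by ring, mul_comm]

/-- the value of the Gaussian integral -/
def gval (Q : Matrix (Fin N) (Fin N) ℝ) (a v : Fin N → ℝ) : ℝ :=
  ∑ k, (1 / 2 * Real.log (2 * π / a k) + Q.mulVec v k ^ 2 / (2 * a k))

theorem integral_quad {Q : Matrix (Fin N) (Fin N) ℝ} (hQ : Q ∈ Matrix.orthogonalGroup (Fin N) ℝ)
    {a : Fin N → ℝ} (ha : ∀ k, 0 < a k) (v : Fin N → ℝ) :
    Integrable (fun y => rexp (quad Q a v y)) ∧ ∫ y, rexp (quad Q a v y) = rexp (gval Q a v) := by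
  set G : (Fin N → ℝ) → ℝ := fun z => ∏ k, rexp (-(a k / 2) * z k ^ 2 + Q.mulVec v k * z k)
  have hG : Integrable G := Integrable.fintype_prod fun k => (integral_one_dim (ha k) _).1
  have e : (fun y => rexp (quad Q a v y)) = fun y => G (Q.mulVec y) := funext fun y => by
    simp only [G, quad, ← Real.exp_sum, Finset.sum_add_distrib, Finset.mul_sum, sum_sq_mulVec hQ]
    congr 2
    exact Finset.sum_congr rfl fun k _ => by ring
  have hm := mp_mulVec hQ
  rw [e]
  refine ⟨(hm.integrable_comp hG.aestronglyMeasurable).2 hG, ?_⟩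
  have hint : ∫ y, G (Q.mulVec y) = ∫ z, G z := by
    conv_rhs => rw [← hm.map_eq]
    exact (integral_map hm.measurable.aemeasurable (hm.map_eq.symm ▸ hG.aestronglyMeasurable)).symm
  rw [hint]
  simp only [G]
  rw [integral_fintype_prod_volume_eq_prod (fun k x => rexp (-(a k / 2) * x ^ 2 + Q.mulVec v k * x)),
    gval, Real.exp_sum]
  refine Finset.prod_congr rfl fun k _ => ?_
  rw [(integral_one_dim (ha k) _).2, Real.exp_add]
  congr 1
  have : 0 < 2 * π / a k := div_pos (by positivity) (ha k)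
  rw [Real.sqrt_eq_rpow, Real.rpow_def_of_pos this]
  ring_nf

lemma quad_diff {Q : Matrix (Fin N) (Fin N) ℝ} (hQ : Q ∈ Matrix.orthogonalGroup (Fin N) ℝ)
    {a v y z : Fin N → ℝ} {C b R h : ℝ} (hh : 0 < h) (ha0 : ∀ k, 0 ≤ a k) (ha : ∀ k, a k ≤ C)
    (hv : ∑ i, v i ^ 2 ≤ b * N) (hz : ∑ i, z i ^ 2 ≤ R * N) (hd : ∀ i, |y i - z i| ≤ h / 2) (hh1 : h ≤ 1)
    (hC : 0 ≤ C) :
    |quad Q a v y - quad Q a v z| ≤ (C * (1 / 16 + 3 * R / 2 + 1 / 4) + (1 + b) / 4) * h * N := by
  set d := fun i => y i - z i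
  have hy : Q.mulVec y = Q.mulVec z + Q.mulVec d := by
    rw [← Matrix.mulVec_add]; congr 1; funext i; simp [d]
  have e : quad Q a v y - quad Q a v z =
      -(1 / 2) * ∑ k, a k * (Q.mulVec d k * (2 * Q.mulVec z k + Q.mulVec d k)) + ∑ i, v i * d i := by
    simp only [quad, hy, Pi.add_apply, d, Finset.mul_sum, mul_sub, Finset.sum_sub_distrib]
    rw [sub_eq_iff_eq_add]
    have : ∀ k, -(1 / 2) * (a k * (Q.mulVec z k + Q.mulVec d k) ^ 2) =
        -(1 / 2) * (a k * (Q.mulVec d k * (2 * Q.mulVec z k + Q.mulVec d k))) +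
          -(1 / 2) * (a k * Q.mulVec z k ^ 2) := fun k => by ring
    simp only [d] at this
    rw [Finset.sum_congr rfl fun k _ => this k, Finset.sum_add_distrib]
    ring
  have hd2 : ∑ i, d i ^ 2 ≤ h ^ 2 / 4 * N := by
    refine (Finset.sum_le_sum fun i _ => (sq_abs (d i)).symm.trans_le
      (pow_le_pow_left₀ (abs_nonneg _) (hd i) 2)).trans (le_of_eq ?_)
    simp; ring
  have hQd : ∑ k, Q.mulVec d k ^ 2 = ∑ i, d i ^ 2 := by simpa [sq] using sum_sq_mulVec hQ d d
  have hQz : ∑ k, Q.mulVec z k ^ 2 = ∑ i, z i ^ 2 := by simpa [sq] using sum_sq_mulVec hQ z z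
  have h1 : |∑ k, a k * (Q.mulVec d k * (2 * Q.mulVec z k + Q.mulVec d k))| ≤
      C * ((1 / 8 + 3 * R + 1 / 2) * h * N) := by
    refine (Finset.abs_sum_le_sum_abs _ _).trans ((Finset.sum_le_sum fun k _ =>
      (abs_mul (a k) _).trans_le (mul_le_mul ((abs_of_nonneg (ha0 k)).trans_le (ha k))
        (show |Q.mulVec d k * (2 * Q.mulVec z k + Q.mulVec d k)| ≤
          Q.mulVec d k ^ 2 / (2 * h) + h / 2 * (6 * Q.mulVec z k ^ 2 + 3 * Q.mulVec d k ^ 2) by
            rw [abs_le]; constructor <;>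
            · rw [← sub_nonneg]
              field_simp
              nlinarith [sq_nonneg (Q.mulVec d k - h * (2 * Q.mulVec z k + Q.mulVec d k)),
                sq_nonneg (Q.mulVec d k + h * (2 * Q.mulVec z k + Q.mulVec d k)),
                mul_nonneg (sq_nonneg h) (sq_nonneg (Q.mulVec z k - Q.mulVec d k)),
                mul_nonneg (sq_nonneg h) (sq_nonneg (Q.mulVec d k))]) (abs_nonneg _) hC)).trans ?_)
    rw [← Finset.mul_sum]
    refine mul_le_mul_of_nonneg_left ?_ hC
    simp only [Finset.sum_add_distrib, ← Finset.sum_div, ← Finset.mul_sum, hQd, hQz]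
    have i1 : (∑ i, d i ^ 2) / (2 * h) ≤ h / 8 * N := by
      rw [div_le_iff₀ (by linarith)]
      calc _ ≤ h ^ 2 / 4 * N := hd2
        _ = _ := by ring
    have i2 : h / 2 * (6 * ∑ i, z i ^ 2) ≤ h / 2 * (6 * (R * N)) := by gcongr
    have i3 : h / 2 * (3 * ∑ i, d i ^ 2) ≤ h / 2 * (3 * (h ^ 2 / 4 * N)) := by gcongr
    have i4 : h / 2 * (3 * (h ^ 2 / 4 * N)) ≤ h / 2 * (1 * N) := by
      refine mul_le_mul_of_nonneg_left ?_ (by linarith)
      rw [← mul_assoc]
      exact mul_le_mul_of_nonneg_right (by nlinarith) (Nat.cast_nonneg _)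
    linarith
  have h2 : |∑ i, v i * d i| ≤ (1 + b) / 4 * h * N := by
    refine (Finset.abs_sum_le_sum_abs _ _).trans ((Finset.sum_le_sum fun i _ =>
      show |v i * d i| ≤ h / 4 * (1 + v i ^ 2) by
        rw [abs_mul]
        calc |v i| * |d i| ≤ |v i| * (h / 2) := mul_le_mul_of_nonneg_left (hd i) (abs_nonneg _)
          _ ≤ _ := by nlinarith [sq_nonneg (|v i| - 1), sq_abs (v i), hh]).trans ?_)
    rw [← Finset.mul_sum, Finset.sum_add_distrib, Finset.sum_const, Finset.card_univ, Fintype.card_fin,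
      nsmul_eq_mul, mul_one]
    nlinarith [mul_le_mul_of_nonneg_left hv hh.le]
  rw [e]
  refine (abs_add_le _ _).trans ?_
  rw [abs_mul, abs_neg, abs_of_pos (by norm_num : (0:ℝ) < 1 / 2)]
  linarith

/-- lattice sums in a large ball approximate Gaussian integrals to first order in the mesh -/
theorem grid_gauss {ε C b : ℝ} (hε : 0 < ε) (hεC : ε ≤ C) (hb : 0 ≤ b) :
    ∃ K C1 : ℝ, 0 < K ∧ 0 ≤ C1 ∧ ∀ (N : ℕ), 0 < N → ∀ h : ℝ, 0 < h → h ≤ 1 →
      ∀ Q : Matrix (Fin N) (Fin N) ℝ, Q ∈ Matrix.orthogonalGroup (Fin N) ℝ →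
      ∀ a : Fin N → ℝ, (∀ k, ε ≤ a k ∧ a k ≤ C) → ∀ v : Fin N → ℝ, ∑ i, v i ^ 2 ≤ b * N →
        |N * Real.log h + Real.log (∑ k ∈ grid K h N, rexp (quad Q a v fun i => h * k i)) - gval Q a v| ≤
          C1 * h * N + Real.log 2 := by
  have hC : 0 < C := hε.trans_le hεC
  set K' := max 0 (4 / ε * (1 / 2 * Real.log (4 * π / ε) + b / ε - 1 / 2 * Real.log (2 * π / C) + Real.log 2))
  set K := 2 * K' + 1
  have hK : 0 < K := by simp only [K]; have := le_max_left 0 (4 / ε * (1 / 2 * Real.log (4 * π / ε) + b / ε - 1 / 2 * Real.log (2 * π / C) + Real.log 2)); linarith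
  set C1 := C * (1 / 16 + 3 * K / 2 + 1 / 4) + (1 + b) / 4
  have hC1 : 0 ≤ C1 := by positivity
  refine ⟨K, C1, hK, hC1, fun N hN h hh hh1 Q hQ a ha v hv => ?_⟩
  have hap : ∀ k, 0 < a k := fun k => hε.trans_le (ha k).1
  have hN' : (1:ℝ) ≤ N := by exact_mod_cast hN
  set f := fun y => rexp (quad Q a v y)
  obtain ⟨hfi, hfI⟩ := integral_quad hQ hap v
  set I := ∫ y, f y with hI
  have hIpos : 0 < I := by rw [hfI]; exact exp_pos _
  set U := ⋃ k ∈ grid K h N, cell h k
  have hUm : MeasurableSet U := Finset.measurableSet_biUnion _ fun k _ => measurableSet_cell h k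
  set S := ∑ k ∈ grid K h N, rexp (quad Q a v fun i => h * k i)
  have hS : 0 < S := Finset.sum_pos (fun k _ => exp_pos _) ⟨0, (mem_grid hh).2 (by simp; positivity)⟩
  -- the union of the cells
  have hIU : ∫ y in U, f y = ∑ k ∈ grid K h N, ∫ y in cell h k, f y :=
    integral_biUnion_finset _ (fun k _ => measurableSet_cell h k)
      (fun k _ l _ hkl => cell_disjoint hh hkl) fun k _ => hfi.integrableOn
  have hcell : ∀ k ∈ grid K h N,
      rexp (-(C1 * h * N)) * (h ^ N * rexp (quad Q a v fun i => h * k i)) ≤ ∫ y in cell h k, f y ∧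
      ∫ y in cell h k, f y ≤ rexp (C1 * h * N) * (h ^ N * rexp (quad Q a v fun i => h * k i)) := by
    intro k hk
    have hfin : volume (cell h k) ≠ ⊤ := by
      rw [cell, Real.volume_pi_Ico]; exact ENNReal.prod_ne_top fun _ _ => ENNReal.ofReal_ne_top
    have hd : ∀ y ∈ cell h k, |quad Q a v y - quad Q a v fun i => h * k i| ≤ C1 * h * N := fun y hy =>
      quad_diff hQ hh (fun k => (hap k).le) (fun k => (ha k).2) hv ((mem_grid hh).1 hk)
        (cell_near hy) hh1 hC.le
    have hcst : ∀ c : ℝ, ∫ _y in cell h k, c = h ^ N * c := fun c => by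
      rw [setIntegral_const, volume_cell hh.le, smul_eq_mul]
    constructor
    · rw [mul_left_comm, ← Real.exp_add, ← hcst]
      exact setIntegral_mono_on (integrableOn_const hfin) hfi.integrableOn (measurableSet_cell h k)
        fun y hy => exp_le_exp.2 (by linarith [(abs_le.1 (hd y hy)).1])
    · rw [mul_left_comm, ← Real.exp_add, ← hcst]
      exact setIntegral_mono_on hfi.integrableOn (integrableOn_const hfin) (measurableSet_cell h k)
        fun y hy => exp_le_exp.2 (by linarith [(abs_le.1 (hd y hy)).2])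
  have hlow : rexp (-(C1 * h * N)) * (h ^ N * S) ≤ I := by
    refine le_trans ?_ (setIntegral_le_integral (s := U) hfi (.of_forall fun y => (exp_pos _).le))
    rw [hIU]; simp only [S, Finset.mul_sum]
    exact Finset.sum_le_sum fun k hk => (hcell k hk).1
  -- the tail
  set g := fun y => rexp (-(ε * K' * N) / 4) * rexp (quad (1 : Matrix (Fin N) (Fin N) ℝ) (fun _ => ε / 2) v y)
  obtain ⟨hgi, hgI⟩ := integral_quad (Submonoid.one_mem (Matrix.orthogonalGroup (Fin N) ℝ))
    (a := fun _ => ε / 2) (fun _ => half_pos hε) v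
  have hpt : ∀ y, f y ≤ U.indicator f y + g y := fun y => by
    by_cases hy : y ∈ U
    · rw [indicator_of_mem hy]; exact le_add_of_nonneg_right (by positivity)
    rw [indicator_of_notMem hy, zero_add]
    simp only [f, g, ← Real.exp_add, exp_le_exp, quad, Matrix.one_mulVec]
    have hbig : K' * N ≤ ∑ i, y i ^ 2 := by
      by_contra hcon
      push Not at hcon
      refine hy (mem_iUnion₂.2 ⟨_, (mem_grid hh).2 ?_, mem_cell_floor hh y⟩)
      refine (Finset.sum_le_sum fun i _ => show _ ≤ 2 * y i ^ 2 + 1 / 2 from ?_).trans ?_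
      · have := cell_near (mem_cell_floor hh y) i
        nlinarith [abs_le.1 this, sq_nonneg (y i + (h * (⌊y i / h + 1 / 2⌋ : ℝ) - y i)),
          sq_nonneg (y i - (h * (⌊y i / h + 1 / 2⌋ : ℝ) - y i))]
      · simp only [Finset.sum_add_distrib, ← Finset.mul_sum, Finset.sum_const, Finset.card_univ,
          Fintype.card_fin, nsmul_eq_mul, K]
        linarith
    have hl : ε * ∑ i, y i ^ 2 ≤ ∑ k, a k * Q.mulVec y k ^ 2 := by
      have := sum_sq_mulVec hQ y y
      simp only [← sq] at this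
      rw [← this, Finset.mul_sum]
      exact Finset.sum_le_sum fun k _ => mul_le_mul_of_nonneg_right (ha k).1 (sq_nonneg _)
    rw [← Finset.mul_sum]
    nlinarith [mul_le_mul_of_nonneg_left hbig hε.le]
  have hgg : rexp (-(ε * K' * N) / 4) * rexp (gval 1 (fun _ => ε / 2) v) ≤ I / 2 := by
    rw [hfI, show rexp (gval Q a v) / 2 = rexp (gval Q a v - Real.log 2) by
      rw [Real.exp_sub, Real.exp_log two_pos], ← Real.exp_add, exp_le_exp]
    have h1 : gval (1 : Matrix (Fin N) (Fin N) ℝ) (fun _ => ε / 2) v ≤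
        N * (1 / 2 * Real.log (4 * π / ε) + b / ε) := by
      simp only [gval, Matrix.one_mulVec, Finset.sum_add_distrib, ← Finset.sum_div, Finset.sum_const,
        Finset.card_univ, Fintype.card_fin, nsmul_eq_mul]
      rw [show 2 * π / (ε / 2) = 4 * π / ε by field_simp; norm_num, show 2 * (ε / 2) = ε by ring]
      have := div_le_div_of_nonneg_right hv hε.le
      have e : b * N / ε = N * (b / ε) := by ring
      linarith
    have h2 : N * (1 / 2 * Real.log (2 * π / C)) ≤ gval Q a v := by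
      calc N * (1 / 2 * Real.log (2 * π / C)) = ∑ _k : Fin N, 1 / 2 * Real.log (2 * π / C) := by simp
        _ ≤ _ := Finset.sum_le_sum fun k _ => le_add_of_le_of_nonneg
          (mul_le_mul_of_nonneg_left (Real.log_le_log (div_pos (by positivity) hC)
            (div_le_div_of_nonneg_left (by positivity) (hap k) (ha k).2)) (by norm_num))
          (div_nonneg (sq_nonneg _) (by linarith [hap k]))
    have h3 : 1 / 2 * Real.log (4 * π / ε) + b / ε - 1 / 2 * Real.log (2 * π / C) + Real.log 2 ≤ ε * K' / 4 := by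
      have := mul_le_mul_of_nonneg_left (le_max_right 0 (4 / ε * (1 / 2 * Real.log (4 * π / ε) + b / ε - 1 / 2 * Real.log (2 * π / C) + Real.log 2))) hε.le
      rw [← mul_assoc, mul_div_cancel₀ _ hε.ne'] at this
      simp only [K']
      linarith
    have h4 := mul_le_mul_of_nonneg_left h3 (by linarith : (0:ℝ) ≤ N)
    have h5 := le_mul_of_one_le_left (Real.log_nonneg (by norm_num : (1:ℝ) ≤ 2)) hN'
    linarith
  have hupp : I ≤ 2 * (rexp (C1 * h * N) * (h ^ N * S)) := by
    have hi2 : Integrable g := hgi.const_mul _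
    have := integral_mono hfi ((hfi.indicator hUm).add hi2) hpt
    simp only [Pi.add_apply] at this
    rw [integral_add (hfi.indicator hUm) hi2, integral_indicator hUm, hIU] at this
    simp only [g] at this
    rw [integral_const_mul, hgI] at this
    have hs : ∑ k ∈ grid K h N, ∫ y in cell h k, f y ≤ rexp (C1 * h * N) * (h ^ N * S) := by
      simp only [S, Finset.mul_sum]
      exact Finset.sum_le_sum fun k hk => (hcell k hk).2
    linarith
  have hp : 0 < h ^ N * S := mul_pos (pow_pos hh N) hS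
  have e : (N:ℝ) * Real.log h + Real.log S = Real.log (h ^ N * S) := by
    rw [Real.log_mul (pow_pos hh N).ne' hS.ne', Real.log_pow]
  have eI : gval Q a v = Real.log I := by rw [hfI, Real.log_exp]
  rw [e, eI, abs_le]
  have l1 := Real.log_le_log (mul_pos (exp_pos _) hp) hlow
  have l2 := Real.log_le_log hIpos hupp
  rw [Real.log_mul (exp_pos _).ne' hp.ne', Real.log_exp] at l1
  rw [Real.log_mul two_ne_zero (mul_pos (exp_pos _) hp).ne', Real.log_mul (exp_pos _).ne' hp.ne',
    Real.log_exp] at l2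
  have := Real.log_nonneg (by norm_num : (1:ℝ) ≤ 2)
  constructor <;> linarith

end Vale.Agent.P166.Soft
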