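import Vale.Agent.P166.Soft.Model
import Vale.Agent.P166.Soft.Gauss
import Vale.Agent.P166.Soft.Defs
import Vale.Agent.P166.Functional

/-!
Ising spins with Gaussian layers on a lattice, coupled by one GOE matrix: a convex system, and its exact
relation with the pressure of the coupling `φ(W)`, `φ x = α + s x + ∑ c_j / (a_j - x)`.
-/

open MeasureTheory Set Real Matrix
open scoped Topology

noncomputable section

namespace Vale.Agent.P166.Soft

open Pattern (gauss lin)

/-- parameters of the layers -/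
structure Par where
  q : ℕ
  a : Fin q → ℝ
  c : Fin q → ℝ
  β : ℝ
  s : ℝ
  K : ℝ
  h : ℝ
  β_nonneg : 0 ≤ β
  s_nonneg : 0 ≤ s
  a_pos : ∀ j, 0 < a j
  c_nonneg : ∀ j, 0 ≤ c j
  h_pos : 0 < h
  K_nonneg : 0 ≤ K

namespace Par

variable (P : Par) {N : ℕ}

/-- configurations -/
abbrev St (N : ℕ) : Type := (Fin N → Bool) × (Fin P.q → ↥(grid P.K P.h N))

/-- the vector spin of a configuration -/
def vec (x : P.St N) : Fin (P.q + 1) → Fin N → ℝ :=
  Fin.cases (fun i => spin (x.1 i)) (fun j i => P.h * ((x.2 j).1 i : ℝ))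

/-- the strengths -/
def str : Fin (P.q + 1) → ℝ := Fin.cases (P.β * P.s) (fun _ => 1)

lemma str_nonneg (j : Fin (P.q + 1)) : 0 ≤ P.str j := by
  cases j using Fin.cases with
  | zero => exact mul_nonneg P.β_nonneg P.s_nonneg
  | succ j => simp [str]

/-- the logarithm of the weight of one site -/
def site (x : P.St N) (i : Fin N) : ℝ :=
  -Real.log 2 + ∑ j : Fin P.q, (-(P.a j / 2) * P.vec x j.succ i ^ 2 +
    √(P.β * P.c j) * P.vec x 0 i * P.vec x j.succ i)

/-- weights -/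
def wgt (x : P.St N) : ℝ := rexp (∑ i, P.site x i)

/-- the Gaussian field -/
def cf (x : P.St N) (p : Fin N × Fin N) : ℝ :=
  (√(2 * (N:ℝ)))⁻¹ * ∑ j, P.str j * (P.vec x j p.1 * P.vec x j p.2)

/-- overlaps -/
def ov (x y : P.St N) (j l : Fin (P.q + 1)) : ℝ := ∑ i, P.vec x j i * P.vec y l i

/-- the square-root of the covariance -/
def amat (k : Fin ((P.q + 1) * (P.q + 1))) (j l : Fin (P.q + 1)) : ℝ :=
  if finProdFinEquiv (j, l) = k then √(P.str j * P.str l) else 0

lemma cov_cf (x y : P.St N) : ∑ p, P.cf x p * P.cf y p =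
    1 / (2 * (N:ℝ)) * ∑ k, (∑ j, ∑ l, P.amat k j l * P.ov x y j l) ^ 2 := by
  have hs : (√(2 * (N:ℝ)))⁻¹ * (√(2 * (N:ℝ)))⁻¹ = 1 / (2 * (N:ℝ)) := by
    rw [← mul_inv, Real.mul_self_sqrt (by positivity), one_div]
  rw [← finProdFinEquiv.sum_comp]
  have e : ∀ p : Fin (P.q + 1) × Fin (P.q + 1),
      (∑ j, ∑ l, P.amat (finProdFinEquiv p) j l * P.ov x y j l) ^ 2 = P.str p.1 * P.str p.2 * P.ov x y p.1 p.2 ^ 2 := by
    rintro ⟨j0, l0⟩
    simp only [amat, EmbeddingLike.apply_eq_iff_eq, ite_mul, zero_mul, Prod.mk.injEq, ite_and,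
      Finset.sum_ite_eq', Finset.mem_univ, if_true, Finset.sum_ite_irrel, Finset.sum_const_zero]
    rw [mul_pow, Real.sq_sqrt (mul_nonneg (P.str_nonneg _) (P.str_nonneg _))]
  rw [Finset.sum_congr rfl fun p _ => e p]
  simp only [Fintype.sum_prod_type, ov, sq, Finset.sum_mul_sum, cf]
  simp only [Finset.mul_sum, Finset.sum_mul]
  conv_lhs => arg 2; ext i; rw [Finset.sum_comm]; arg 2; ext j; rw [Finset.sum_comm]
  rw [Finset.sum_comm]
  conv_lhs => arg 2; ext j; rw [Finset.sum_comm]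
  conv_lhs => rw [Finset.sum_comm]
  refine Finset.sum_congr rfl fun j _ => Finset.sum_congr rfl fun l _ => Finset.sum_congr rfl fun i _ =>
    Finset.sum_congr rfl fun k _ => ?_
  rw [← hs]; ring

lemma vec_sq (x : P.St N) (j : Fin (P.q + 1)) : ∑ i, P.vec x j i ^ 2 ≤ max 1 P.K * N := by
  cases j using Fin.cases with
  | zero =>
    have : ∀ i, P.vec x 0 i ^ 2 = 1 := fun i => by
      simp only [vec, Fin.cases_zero, spin]; split <;> norm_num
    simp only [this, Finset.sum_const, Finset.card_univ, Fintype.card_fin, nsmul_eq_mul, mul_one]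
    exact le_mul_of_one_le_left (Nat.cast_nonneg N) (le_max_left _ _)
  | succ j =>
    simp only [vec, Fin.cases_succ]
    exact ((mem_grid P.h_pos).1 (x.2 j).2).trans
      (mul_le_mul_of_nonneg_right (le_max_right _ _) (Nat.cast_nonneg N))

lemma zero_mem : (0 : Fin N → ℤ) ∈ grid P.K P.h N :=
  (mem_grid P.h_pos).2 (by simpa using mul_nonneg P.K_nonneg (Nat.cast_nonneg N))

/-- the bound of the mass per site -/
def mass : ℝ :=
  ∑ j : Fin P.q, (P.β * P.c j / P.a j + Real.log (∑' k : ℤ, rexp (-(P.a j / 4 * P.h ^ 2) * |(k:ℝ)|)))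

lemma summable_abs {t : ℝ} (ht : 0 < t) : Summable fun k : ℤ => rexp (-t * |(k:ℝ)|) := by
  have h : Summable fun n : ℕ => rexp (-t * (n:ℝ)) := by
    refine (summable_geometric_of_lt_one (exp_pos _).le (exp_lt_one_iff.2 (neg_neg_of_pos ht))).congr fun n => ?_
    rw [← Real.exp_nat_mul, mul_comm]
  exact Summable.of_nat_of_neg (by simpa using h) (by simpa using h)

lemma mass_bound : ∑ x : P.St N, P.wgt x ≤ rexp (P.mass * N) := by
  set Z := fun j : Fin P.q => ∑' k : ℤ, rexp (-(P.a j / 4 * P.h ^ 2) * |(k:ℝ)|)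
  have ht : ∀ j, 0 < P.a j / 4 * P.h ^ 2 := fun j => mul_pos (by linarith [P.a_pos j]) (pow_pos P.h_pos 2)
  have hZ : ∀ j, 0 < Z j := fun j =>
    (summable_abs (ht j)).tsum_pos (fun _ => (exp_pos _).le) 0 (exp_pos _)
  set f := fun (j : Fin P.q) (k : Fin N → ℤ) => rexp (N * (P.β * P.c j / P.a j)) * ∏ i, rexp (-(P.a j / 4 * P.h ^ 2) * |(k i:ℝ)|)
  have hw : ∀ x : P.St N, P.wgt x ≤ ((2:ℝ) ^ N)⁻¹ * ∏ j, f j (x.2 j).1 := fun x => by
    have e : ((2:ℝ) ^ N)⁻¹ * ∏ j, f j (x.2 j).1 = rexp (∑ i : Fin N, (-Real.log 2 + ∑ j : Fin P.q,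
        (P.β * P.c j / P.a j + -(P.a j / 4 * P.h ^ 2) * |((x.2 j).1 i:ℝ)|))) := by
      simp only [f, Finset.sum_add_distrib, Real.exp_add, Finset.sum_const, Finset.card_univ, Fintype.card_fin,
        nsmul_eq_mul, ← Real.exp_sum, ← Finset.mul_sum, mul_neg, ← Real.exp_nat_mul]
      rw [Finset.sum_comm (f := fun (i : Fin N) (j : Fin P.q) => -(P.a j / 4 * P.h ^ 2) * |((x.2 j).1 i:ℝ)|)]
      simp only [← Finset.mul_sum, Real.exp_sum, Finset.prod_mul_distrib, Real.exp_neg, Real.exp_nat_mul,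
        Real.exp_log two_pos, inv_pow]
      rw [← Finset.prod_pow]
    rw [e, wgt]
    refine exp_le_exp.2 (Finset.sum_le_sum fun i _ => add_le_add le_rfl (Finset.sum_le_sum fun j _ => ?_))
    simp only [vec, Fin.cases_zero, Fin.cases_succ]
    set k : ℝ := ((x.2 j).1 i : ℝ)
    have hk : |k| ≤ k ^ 2 := by
      simp only [k]
      have h := Int.le_self_sq |(x.2 j).1 i|
      rw [sq_abs] at h
      exact_mod_cast h
    have hσ : spin (x.1 i) ^ 2 = 1 := by simp only [spin]; split <;> norm_num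
    have ha := P.a_pos j
    set r := √(P.β * P.c j)
    have hr : r ^ 2 = P.β * P.c j := Real.sq_sqrt (mul_nonneg P.β_nonneg (P.c_nonneg j))
    have h1 : r * spin (x.1 i) * (P.h * k) ≤ r ^ 2 / P.a j + P.a j / 4 * (P.h * k) ^ 2 := by
      rw [div_add' _ _ _ ha.ne', le_div_iff₀ ha]
      nlinarith [sq_nonneg (r * spin (x.1 i) - P.a j / 2 * (P.h * k)), hσ]
    rw [← hr]
    nlinarith [mul_le_mul_of_nonneg_left hk (ht j).le]
  refine (Finset.sum_le_sum fun x _ => hw x).trans ?_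
  rw [← Finset.mul_sum, Fintype.sum_prod_type]
  simp only []
  rw [Finset.sum_const, Finset.card_univ, Fintype.card_fun,
    Fintype.card_bool, Fintype.card_fin, nsmul_eq_mul, Nat.cast_pow, Nat.cast_ofNat, inv_mul_cancel_left₀ (by positivity),
    ← Fintype.prod_sum (fun (j : Fin P.q) (k : ↥(grid P.K P.h N)) => f j k.1), mass, Finset.sum_mul, Real.exp_sum]
  refine Finset.prod_le_prod (fun j _ => Finset.sum_nonneg fun k _ => by positivity) fun j _ => ?_
  rw [Finset.sum_coe_sort (grid P.K P.h N) (f j)]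
  simp only [f, ← Finset.mul_sum]
  rw [add_mul, Real.exp_add, mul_comm (N:ℝ), mul_comm (Real.log _), Real.exp_nat_mul (Real.log _),
    Real.exp_log (hZ j)]
  refine mul_le_mul_of_nonneg_left ?_ (exp_pos _).le
  refine (Finset.sum_le_sum_of_subset_of_nonneg (Finset.filter_subset _ _) fun k _ _ => by positivity).trans ?_
  rw [Finset.sum_prod_piFinset _ (fun (_ : Fin N) (k : ℤ) => rexp (-(P.a j / 4 * P.h ^ 2) * |(k:ℝ)|))]
  simp only [Finset.prod_const, Finset.card_univ, Fintype.card_fin]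
  exact pow_le_pow_left₀ (Finset.sum_nonneg fun _ _ => (exp_pos _).le)
    ((summable_abs (ht j)).sum_le_tsum _ fun _ _ => (exp_pos _).le) N

lemma join (k N : ℕ) (n : Option (Fin k) → ℕ) (hn : ∑ c, n c = N) :
    ∃ J : (∀ c, P.St (n c)) → P.St N, Function.Injective J ∧
      (∀ f f' j l, P.ov (J f) (J f') j l = ∑ c, P.ov (f c) (f' c) j l) ∧ ∀ f, ∏ c, P.wgt (f c) ≤ P.wgt (J f) := by
  set e : Fin N ≃ Σ c, Fin (n c) :=
    (Fintype.equivFinOfCardEq (by simp only [Fintype.card_sigma, Fintype.card_fin, hn])).symm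
  have hsum : ∀ F : (Σ c, Fin (n c)) → ℝ, ∑ i, F (e i) = ∑ c, ∑ i, F ⟨c, i⟩ := fun F => by
    rw [e.sum_comp, Fintype.sum_sigma]
  have hmem : ∀ (f : ∀ c, P.St (n c)) (j : Fin P.q),
      (fun i => ((f (e i).1).2 j).1 (e i).2) ∈ grid P.K P.h N := fun f j => by
    rw [mem_grid P.h_pos, hsum fun p => (P.h * (((f p.1).2 j).1 p.2 : ℝ)) ^ 2, ← hn, Nat.cast_sum, Finset.mul_sum]
    exact Finset.sum_le_sum fun c _ => (mem_grid P.h_pos).1 ((f c).2 j).2
  set J : (∀ c, P.St (n c)) → P.St N := fun f =>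
    (fun i => (f (e i).1).1 (e i).2, fun j => ⟨fun i => ((f (e i).1).2 j).1 (e i).2, hmem f j⟩)
  have hv : ∀ f j i, P.vec (J f) j i = P.vec (f (e i).1) j (e i).2 := fun f j i => by
    cases j using Fin.cases <;> simp [vec, J]
  refine ⟨J, fun f f' h => funext fun c => Prod.ext (funext fun i => ?_) (funext fun j => Subtype.ext (funext fun i => ?_)),
    fun f f' j l => ?_, fun f => le_of_eq ?_⟩
  · have key : ∀ p : Σ c, Fin (n c), (f p.1).1 p.2 = (f' p.1).1 p.2 := fun p => by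
      obtain ⟨i, rfl⟩ := e.surjective p
      exact congrFun (congrArg Prod.fst h) i
    exact key ⟨c, i⟩
  · have key : ∀ p : Σ c, Fin (n c), ((f p.1).2 j).1 p.2 = ((f' p.1).2 j).1 p.2 := fun p => by
      obtain ⟨i, rfl⟩ := e.surjective p
      exact congrFun (congrArg Subtype.val (congrFun (congrArg Prod.snd h) j)) i
    exact key ⟨c, i⟩
  · simp only [ov, hv]
    exact hsum fun p => P.vec (f p.1) j p.2 * P.vec (f' p.1) l p.2
  · simp only [wgt, ← Real.exp_sum]
    congr 1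
    simp only [site, hv]
    exact (hsum fun p => P.site (f p.1) p.2).symm

/-- the system -/
def sys : Sys where
  p := P.q + 1
  r := (P.q + 1) * (P.q + 1)
  St := P.St
  fin _ := inferInstance
  Idx N := Fin N × Fin N
  idxFin _ := inferInstance
  S x y j l := P.ov x y j l
  wt x := P.wgt x
  coef x p := P.cf x p
  A := P.amat
  D := max 1 P.K
  C := P.mass
  E := Real.log 2
  E_nonneg := Real.log_nonneg (by norm_num)
  D_nonneg := le_trans zero_le_one (le_max_left _ _)
  x0 N := (fun _ => true, fun _ => ⟨0, P.zero_mem⟩)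
  wt_pos _ := exp_pos _
  x0_wt N := by simp [wgt, site, vec, Real.log_exp, mul_comm]
  cov_eq := P.cov_cf
  abs_S x y j l := by
    refine (Finset.abs_sum_le_sum_abs _ _).trans ((Finset.sum_le_sum fun i _ =>
      show |P.vec x j i * P.vec y l i| ≤ (P.vec x j i ^ 2 + P.vec y l i ^ 2) / 2 by
        rw [abs_mul, ← sq_abs (P.vec x j i), ← sq_abs (P.vec y l i)]
        nlinarith [sq_nonneg (|P.vec x j i| - |P.vec y l i|)]).trans ?_)
    rw [← Finset.sum_div, Finset.sum_add_distrib]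
    linarith [P.vec_sq x j, P.vec_sq y l]
  S_zero x y j l h := by subst h; simp [ov]
  mass_le _ := P.mass_bound
  join k N n _ hn := P.join k N n hn

/-- log partition function of the layers -/
def L (N : ℕ) (g : Fin N × Fin N → ℝ) : ℝ := lse (fun x : P.St N => P.wgt x) (lin (fun x : P.St N => P.cf x) g)

lemma L_eq (N : ℕ) (g : Fin N × Fin N → ℝ) : P.L N g = P.sys.L N g := rfl

end Par

lemma lse_close {S : Type*} [Fintype S] [Nonempty S] {w : S → ℝ} (hw : ∀ σ, 0 < w σ) {u v : S → ℝ} {e : ℝ}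
    (h : ∀ σ, |u σ - v σ| ≤ e) : |lse w u - lse w v| ≤ e := by
  have key : ∀ u v : S → ℝ, (∀ σ, u σ ≤ e + v σ) → lse w u ≤ e + lse w v := fun u v h => by
    rw [lse, lse, Real.log_le_iff_le_exp (z_pos hw u), Real.exp_add, Real.exp_log (z_pos hw v), Finset.mul_sum]
    refine Finset.sum_le_sum fun σ _ => ?_
    rw [mul_left_comm, ← Real.exp_add]
    exact mul_le_mul_of_nonneg_left (exp_le_exp.2 (h σ)) (hw σ).le
  rw [abs_le]
  constructor
  · linarith [key v u fun σ => by linarith [(abs_le.1 (h σ)).1]]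
  · linarith [key u v fun σ => by linarith [(abs_le.1 (h σ)).2]]

/-- the spectral function -/
def phi {q : ℕ} (α s : ℝ) (a c : Fin q → ℝ) (x : ℝ) : ℝ := α + s * x + ∑ j, c j / (a j - x)

/-- the constant relating the pressure to the layers -/
def shift {q N : ℕ} (α β h : ℝ) (a : Fin q → ℝ) (lam : Fin N → ℝ) : ℝ :=
  β * α / 2 + q * Real.log h - (∑ j, ∑ k, 1 / 2 * Real.log (2 * π / (a j - lam k))) / N

lemma quad_goe {N : ℕ} {g : Fin N × Fin N → ℝ} {lam : Fin N → ℝ} {Q : Matrix (Fin N) (Fin N) ℝ}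
    (hW : goe g = Qᵀ * Matrix.diagonal lam * Q) (y : Fin N → ℝ) :
    (√(2 * (N:ℝ)))⁻¹ * ∑ p : Fin N × Fin N, g p * (y p.1 * y p.2) = 1 / 2 * ∑ k, lam k * Q.mulVec y k ^ 2 := by
  have h1 : ∑ i, ∑ k, y i * goe g i k * y k = 2 * ((√(2 * (N:ℝ)))⁻¹ * ∑ p : Fin N × Fin N, g p * (y p.1 * y p.2)) := by
    simp only [goe, Matrix.of_apply, Fintype.sum_prod_type, Finset.mul_sum]
    calc ∑ i, ∑ k, y i * ((g (i, k) + g (k, i)) / √(2 * (N:ℝ))) * y k
        = ∑ i, ∑ k, (√(2 * (N:ℝ)))⁻¹ * (g (i, k) * (y i * y k)) +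
            ∑ i, ∑ k, (√(2 * (N:ℝ)))⁻¹ * (g (k, i) * (y k * y i)) := by
          rw [← Finset.sum_add_distrib]
          refine Finset.sum_congr rfl fun i _ => ?_
          rw [← Finset.sum_add_distrib]
          exact Finset.sum_congr rfl fun k _ => by ring
      _ = _ := by
          conv_lhs => arg 2; rw [Finset.sum_comm]
          rw [← two_mul, Finset.mul_sum]
          exact Finset.sum_congr rfl fun i _ => Finset.mul_sum _ _ _
  have h2 : ∑ i, ∑ k, y i * goe g i k * y k = ∑ k, lam k * Q.mulVec y k ^ 2 := by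
    rw [hW]
    simp only [Matrix.mul_apply, Matrix.transpose_apply, Matrix.diagonal_apply, mul_ite, mul_zero,
      Finset.sum_ite_eq', Finset.mem_univ, if_true, Matrix.mulVec, dotProduct, sq, Finset.sum_mul, Finset.mul_sum]
    conv_lhs => arg 2; ext; rw [Finset.sum_comm]
    rw [Finset.sum_comm]
    exact Finset.sum_congr rfl fun m _ => Finset.sum_congr rfl fun i _ => Finset.sum_congr rfl fun k _ => by ring
  linarith

/-- **the pressure of `φ(W)` is the log partition function of the layers up to the lattice error** -/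
theorem link {q : ℕ} (a c : Fin q → ℝ) {β s Λ : ℝ} (α : ℝ) (hβ : 0 ≤ β) (hs : 0 ≤ s) (hc : ∀ j, 0 ≤ c j)
    (hΛ : 0 ≤ Λ) (ha : ∀ j, Λ < a j) :
    ∃ K C1 : ℝ, ∃ hK : 0 ≤ K, 0 ≤ C1 ∧ ∀ (h : ℝ) (hh : 0 < h), h ≤ 1 → ∀ (N : ℕ), 0 < N →
      ∀ (g : Fin N × Fin N → ℝ) (lam : Fin N → ℝ) (Q : Matrix (Fin N) (Fin N) ℝ),
        Q ∈ Matrix.orthogonalGroup (Fin N) ℝ → goe g = Qᵀ * Matrix.diagonal lam * Q → (∀ k, |lam k| ≤ Λ) →
        |pressure β (fun k => phi α s a c (lam k)) (fun i k => Q i k) -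
          (shift α β h a lam + Par.L ⟨q, a, c, β, s, K, h, hβ, hs, fun j => hΛ.trans_lt (ha j), hc, hh, hK⟩ N g / N)| ≤
            q * (C1 * h + Real.log 2 / N) := by
  classical
  obtain ⟨ε, hε, hεa⟩ : ∃ ε : ℝ, 0 < ε ∧ ∀ j, ε ≤ a j - Λ := by
    rcases isEmpty_or_nonempty (Fin q) with h | h
    · exact ⟨1, one_pos, fun j => isEmptyElim j⟩
    · obtain ⟨j0, hj0⟩ := Finite.exists_min fun j => a j - Λ
      exact ⟨a j0 - Λ, sub_pos.2 (ha j0), hj0⟩
  set C := ε + ∑ j, (|a j| + Λ)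
  set b := ∑ j, β * c j
  have hb : 0 ≤ b := Finset.sum_nonneg fun j _ => mul_nonneg hβ (hc j)
  have hCε : ε ≤ C := le_add_of_nonneg_right (Finset.sum_nonneg fun j _ => by positivity)
  obtain ⟨K, C1, hK, hC1, hG⟩ := grid_gauss hε hCε hb
  refine ⟨K, C1, hK.le, hC1, fun h hh hh1 N hN g lam Q hQ hW hlam => ?_⟩
  set P : Par := ⟨q, a, c, β, s, K, h, hβ, hs, fun j => hΛ.trans_lt (ha j), hc, hh, hK.le⟩
  have hN' : (0:ℝ) < N := by exact_mod_cast hN
  set Y := fun σ : Fin N → Bool => fun i => spin (σ i)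
  set V := fun (j : Fin q) (σ : Fin N → Bool) => fun i => √(β * c j) * Y σ i
  set A := fun (j : Fin q) => fun k => a j - lam k
  set G := fun (j : Fin q) (σ : Fin N → Bool) =>
    Real.log (∑ k ∈ grid K h N, rexp (quad Q (A j) (V j σ) fun i => h * k i))
  set T := fun σ : Fin N → Bool => β * s / 2 * ∑ k, lam k * Q.mulVec (Y σ) k ^ 2
  have hY : ∀ σ, ∑ i, Y σ i ^ 2 = N := fun σ => by
    have : ∀ i, Y σ i ^ 2 = 1 := fun i => by simp only [Y, spin]; split <;> norm_num
    simp [this]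
  -- exact form of the layers
  have hL : P.L N g = lse (fun _ => ((2:ℝ) ^ N)⁻¹) (fun σ => T σ + ∑ j, G j σ) := by
    simp only [Par.L, lse, Fintype.sum_prod_type]
    congr 1
    refine Finset.sum_congr rfl fun σ _ => ?_
    rw [Real.exp_add, Real.exp_sum]
    have hZ : ∀ j, rexp (G j σ) = ∑ k : ↥(grid K h N), rexp (quad Q (A j) (V j σ) fun i => h * k.1 i) := fun j => by
      rw [Finset.sum_coe_sort (grid K h N) (fun k => rexp (quad Q (A j) (V j σ) fun i => h * k i)),
        Real.exp_log (Finset.sum_pos (fun k _ => exp_pos _) ⟨0, P.zero_mem⟩)]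
    simp only [hZ, Fintype.prod_sum, Finset.mul_sum]
    refine Finset.sum_congr rfl fun ks _ => ?_
    rw [← Real.exp_sum, ← Real.exp_log (show (0:ℝ) < ((2:ℝ) ^ N)⁻¹ by positivity), Par.wgt, ← Real.exp_add,
      ← Real.exp_add, ← Real.exp_add]
    congr 1
    have hlin : lin (fun x : P.St N => P.cf x) g (σ, ks) =
        ∑ j, P.str j * (1 / 2 * ∑ k, lam k * Q.mulVec (P.vec (σ, ks) j) k ^ 2) := by
      simp only [lin, Par.cf, ← quad_goe hW, Finset.mul_sum, Finset.sum_mul]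
      rw [Finset.sum_comm]
      exact Finset.sum_congr rfl fun j _ => Finset.sum_congr rfl fun p _ => by ring
    have hq : ∀ y : Fin N → ℝ, ∑ k, Q.mulVec y k ^ 2 = ∑ i, y i ^ 2 := fun y => by
      simpa [sq] using sum_sq_mulVec hQ y y
    have hsite : ∑ i, P.site (σ, ks) i = (N:ℝ) * -Real.log 2 + ∑ j : Fin q,
        (-(a j / 2) * ∑ i, (h * ((ks j).1 i : ℝ)) ^ 2 + √(β * c j) * ∑ i, spin (σ i) * (h * ((ks j).1 i : ℝ))) := by
      simp only [Par.site, Par.vec, Fin.cases_zero, Fin.cases_succ, Finset.sum_add_distrib, Finset.sum_const,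
        Finset.card_univ, Fintype.card_fin, nsmul_eq_mul, P, Finset.mul_sum, mul_assoc]
      refine congrArg _ (congrArg₂ (· + ·) Finset.sum_comm Finset.sum_comm)
    have hquad : ∀ (j : Fin q) (y : Fin N → ℝ), quad Q (A j) (V j σ) y =
        -(a j / 2) * ∑ i, y i ^ 2 + √(β * c j) * ∑ i, spin (σ i) * y i + 1 / 2 * ∑ k, lam k * Q.mulVec y k ^ 2 := fun j y => by
      simp only [quad, A, V, Y, sub_mul, Finset.sum_sub_distrib, ← Finset.mul_sum, hq, mul_assoc]
      ring
    rw [hlin, hsite, Fin.sum_univ_succ, Real.log_inv, Real.log_pow]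
    simp only [hquad, Par.str, Par.vec, Fin.cases_zero, Fin.cases_succ, Finset.sum_add_distrib, T, Y, P, one_mul]
    ring
  set cst := β * α / 2 * N + q * N * Real.log h - ∑ j, ∑ k, 1 / 2 * Real.log (2 * π / (a j - lam k))
  have hE : ∀ σ, |energy β (fun k => phi α s a c (lam k)) (fun i k => Q i k) σ - (cst + (T σ + ∑ j, G j σ))| ≤
      q * (C1 * h * N + Real.log 2) := fun σ => by
    have e : energy β (fun k => phi α s a c (lam k)) (fun i k => Q i k) σ - (cst + (T σ + ∑ j, G j σ)) =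
        ∑ j, (gval Q (A j) (V j σ) - (N * Real.log h + G j σ)) := by
      have hqy : ∑ k, Q.mulVec (Y σ) k ^ 2 = N := by
        rw [show ∑ k, Q.mulVec (Y σ) k ^ 2 = ∑ i, Y σ i ^ 2 by simpa [sq] using sum_sq_mulVec hQ (Y σ) (Y σ), hY]
      have hf : ∀ k, field (fun i k => Q i k) σ k = Q.mulVec (Y σ) k := fun k => rfl
      have hv : ∀ j, gval Q (A j) (V j σ) = ∑ k, 1 / 2 * Real.log (2 * π / (a j - lam k)) +
          β / 2 * ∑ k, c j / (a j - lam k) * Q.mulVec (Y σ) k ^ 2 := fun j => by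
        have : V j σ = √(β * c j) • Y σ := rfl
        simp only [gval, this, Matrix.mulVec_smul, Pi.smul_apply, smul_eq_mul, mul_pow,
          Real.sq_sqrt (mul_nonneg hβ (hc j)), Finset.sum_add_distrib, A, Finset.mul_sum]
        exact congrArg _ (Finset.sum_congr rfl fun k _ => by rw [← div_div]; ring)
      simp only [energy, hf, phi, add_mul, Finset.sum_add_distrib, Finset.sum_mul, ← Finset.mul_sum, hv,
        Finset.sum_sub_distrib, Finset.sum_const, Finset.card_univ, Fintype.card_fin, nsmul_eq_mul, cst, T]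
      rw [hqy, Finset.sum_comm (s := (Finset.univ : Finset (Fin N))) (t := (Finset.univ : Finset (Fin q)))]
      simp only [mul_assoc, ← Finset.mul_sum]
      ring
    rw [e]
    refine (Finset.abs_sum_le_sum_abs _ _).trans ((Finset.sum_le_card_nsmul _ _ (C1 * h * N + Real.log 2)
      fun j _ => ?_).trans (le_of_eq (by rw [Finset.card_univ, Fintype.card_fin, nsmul_eq_mul])))
    rw [abs_sub_comm]
    refine hG N hN h hh hh1 Q hQ (A j) (fun k => ?_) (V j σ) ?_
    · have h1 := abs_le.1 (hlam k)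
      have h2 := Finset.single_le_sum (f := fun j => |a j| + Λ) (fun j _ => by positivity) (Finset.mem_univ j)
      simp only [A, C]
      constructor <;> linarith [hεa j, le_abs_self (a j)]
    · simp only [V, mul_pow, Real.sq_sqrt (mul_nonneg hβ (hc j)), ← Finset.mul_sum, hY, b]
      exact mul_le_mul_of_nonneg_right (mul_le_mul_of_nonneg_left (Finset.single_le_sum (f := c)
        (fun j _ => hc j) (Finset.mem_univ j)) hβ) (Nat.cast_nonneg N)
  have hw : ∀ σ : Fin N → Bool, 0 < ((2:ℝ) ^ N)⁻¹ := fun _ => by positivity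
  have key := lse_close hw hE
  have e1 : lse (fun _ => ((2:ℝ) ^ N)⁻¹) (fun σ => energy β (fun k => phi α s a c (lam k)) (fun i k => Q i k) σ) =
      N * pressure β (fun k => phi α s a c (lam k)) (fun i k => Q i k) := by
    rw [pressure_eq, ← mul_assoc, mul_one_div_cancel hN'.ne', one_mul, lse, ← Finset.mul_sum]
  have e2 : lse (fun _ => ((2:ℝ) ^ N)⁻¹) (fun σ => cst + (T σ + ∑ j, G j σ)) = cst + P.L N g := by
    rw [hL]
    simp only [lse, Real.exp_add cst, mul_left_comm _ (rexp cst), ← Finset.mul_sum]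
    rw [Real.log_mul (exp_pos _).ne' (mul_pos (by positivity)
      (Finset.sum_pos (fun σ _ => exp_pos _) Finset.univ_nonempty)).ne', Real.log_exp]
  rw [e1, e2] at key
  have ec : shift α β h a lam + P.L N g / N = (cst + P.L N g) / N := by
    simp only [shift, cst]; field_simp
  rw [ec, show pressure β (fun k => phi α s a c (lam k)) (fun i k => Q i k) - (cst + P.L N g) / N =
    (N * pressure β (fun k => phi α s a c (lam k)) (fun i k => Q i k) - (cst + P.L N g)) / N by field_simp,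
    abs_div, abs_of_pos hN', div_le_iff₀ hN']
  refine key.trans (le_of_eq ?_)
  field_simp

end Vale.Agent.P166.Soft
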