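import Vale.Agent.P166.Soft.Compare

/-!
Superadditivity of a finite Gaussian spin model with a convex overlap function and vector spins.
-/

open MeasureTheory ProbabilityTheory Filter Set
open scoped Topology

noncomputable section

namespace Vale.Agent.P166.Soft

open Pattern (gauss lin cov)

/-- finite systems of growing size with a Gaussian field whose covariance is a sum of squares of linear
functions of the overlap matrix -/
structure Sys where
  p : ℕ
  r : ℕ
  St : ℕ → Type
  fin : ∀ N, Fintype (St N)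
  Idx : ℕ → Type
  idxFin : ∀ N, Fintype (Idx N)
  S : ∀ {N}, St N → St N → Fin p → Fin p → ℝ
  wt : ∀ {N}, St N → ℝ
  coef : ∀ {N}, St N → Idx N → ℝ
  A : Fin r → Fin p → Fin p → ℝ
  D : ℝ
  C : ℝ
  E : ℝ
  E_nonneg : 0 ≤ E
  D_nonneg : 0 ≤ D
  x0 : ∀ N, St N
  wt_pos : ∀ {N} (x : St N), 0 < wt x
  x0_wt : ∀ N, -(E * N) ≤ Real.log (wt (x0 N))
  cov_eq : ∀ {N} (x y : St N), ∑ q, coef x q * coef y q =
    1 / (2 * (N : ℝ)) * ∑ k, (∑ j, ∑ l, A k j l * S x y j l) ^ 2
  abs_S : ∀ {N} (x y : St N) j l, |S x y j l| ≤ D * N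
  S_zero : ∀ {N} (x y : St N) j l, N = 0 → S x y j l = 0
  mass_le : ∀ N, ∑ x : St N, wt x ≤ Real.exp (C * N)
  join : ∀ (k N : ℕ) (n : Option (Fin k) → ℕ), 0 < N → ∑ c, n c = N →
    ∃ J : (∀ c, St (n c)) → St N, Function.Injective J ∧
      (∀ f f' j l, S (J f) (J f') j l = ∑ c, S (f c) (f' c) j l) ∧ ∀ f, ∏ c, wt (f c) ≤ wt (J f)

attribute [instance] Sys.fin Sys.idxFin

namespace Sys

variable (M : Sys) {N : ℕ}

instance (N : ℕ) : Nonempty (M.St N) := ⟨M.x0 N⟩

/-- size of the covariance -/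
def B : ℝ := ∑ k, ∑ j, ∑ l, M.A k j l ^ 2

/-- penalty for the self overlap -/
def pen (Q : Fin M.p → Fin M.p → ℝ) (x : M.St N) : ℝ :=
  M.B / 4 * ∑ j, ∑ l, (N : ℝ) * (M.S x x j l / N - Q j l) ^ 2

/-- log partition function -/
def L (N : ℕ) (g : M.Idx N → ℝ) : ℝ :=
  lse (fun x : M.St N => M.wt x) (lin (fun x : M.St N => M.coef x) g)

/-- mean log partition function -/
def F (N : ℕ) : ℝ := ∫ g, M.L N g ∂gauss (M.Idx N)

/-- mean log partition function with penalty -/
def G (Q : Fin M.p → Fin M.p → ℝ) (N : ℕ) : ℝ :=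
  ∫ g, lse (fun x : M.St N => M.wt x * Real.exp (-M.pen Q x))
    (lin (fun x : M.St N => M.coef x) g) ∂gauss (M.Idx N)

lemma B_nonneg : 0 ≤ M.B := by unfold B; positivity

lemma cs (k : Fin M.r) (u : Fin M.p → Fin M.p → ℝ) :
    (∑ j, ∑ l, M.A k j l * u j l) ^ 2 ≤ (∑ j, ∑ l, M.A k j l ^ 2) * ∑ j, ∑ l, u j l ^ 2 := by
  simp only [← Fintype.sum_prod_type (f := fun q : Fin M.p × Fin M.p => M.A k q.1 q.2 * u q.1 q.2),
    ← Fintype.sum_prod_type (f := fun q : Fin M.p × Fin M.p => M.A k q.1 q.2 ^ 2),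
    ← Fintype.sum_prod_type (f := fun q : Fin M.p × Fin M.p => u q.1 q.2 ^ 2)]
  exact Finset.sum_mul_sq_le_sq_mul_sq _ _ _

/-- the covariance is at most linear in the size -/
def Cb : ℝ := (M.p : ℝ) ^ 2 * M.B * M.D ^ 2 / 2

lemma cov_le (x y : M.St N) : |cov (fun x : M.St N => M.coef x) x y| ≤ M.Cb * N := by
  rw [cov, M.cov_eq, abs_mul, abs_of_nonneg (show 0 ≤ 1 / (2 * (N : ℝ)) by positivity),
    abs_of_nonneg (Finset.sum_nonneg fun k _ => sq_nonneg _)]
  have hb : ∑ k, (∑ j, ∑ l, M.A k j l * M.S x y j l) ^ 2 ≤ M.B * ((M.p : ℝ) ^ 2 * (M.D * N) ^ 2) := by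
    rw [B, Finset.sum_mul]
    refine Finset.sum_le_sum fun k _ => (M.cs k _).trans (mul_le_mul_of_nonneg_left ?_ (by positivity))
    refine (Finset.sum_le_sum fun j _ => Finset.sum_le_sum fun l _ =>
      (sq_abs (M.S x y j l)).symm.trans_le (pow_le_pow_left₀ (abs_nonneg _) (M.abs_S x y j l) 2)).trans (le_of_eq ?_)
    simp only [Finset.sum_const, Finset.card_univ, Fintype.card_fin, nsmul_eq_mul]; ring
  refine (mul_le_mul_of_nonneg_left hb (by positivity)).trans (le_of_eq ?_)
  simp only [Cb]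
  rcases eq_or_ne (N : ℝ) 0 with h | h
  · simp [h]
  · field_simp

end Sys

lemma gap_split {ι : Type*} [Fintype ι] (n : ι → ℕ) (R : ι → ℝ) (hN : 0 < ∑ c, n c) (Q : ℝ) :
    0 ≤ ∑ c, (n c : ℝ) * R c ^ 2 - (∑ c, (n c : ℝ) * R c) ^ 2 / ∑ c, (n c : ℝ) ∧
    ∑ c, (n c : ℝ) * R c ^ 2 - (∑ c, (n c : ℝ) * R c) ^ 2 / ∑ c, (n c : ℝ) ≤
      ∑ c, (n c : ℝ) * (R c - Q) ^ 2 := by
  set T := ∑ c, (n c : ℝ) with hT
  have hT0 : 0 < T := by rw [hT, ← Nat.cast_sum]; exact_mod_cast hN
  have e : ∀ a : ℝ, ∑ c, (n c : ℝ) * (R c - a) ^ 2 =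
      ∑ c, (n c : ℝ) * R c ^ 2 - 2 * a * ∑ c, (n c : ℝ) * R c + a ^ 2 * T := fun a => by
    rw [hT, Finset.mul_sum, Finset.mul_sum, ← Finset.sum_sub_distrib, ← Finset.sum_add_distrib]
    exact Finset.sum_congr rfl fun c _ => by ring
  set s := ∑ c, (n c : ℝ) * R c
  refine ⟨?_, ?_⟩
  · have h := Finset.sum_nonneg fun c (_ : c ∈ Finset.univ) => mul_nonneg (Nat.cast_nonneg (α := ℝ) (n c)) (sq_nonneg (R c - s / T))
    rw [e] at h
    have : -(2 * (s / T) * s) + (s / T) ^ 2 * T = -(s ^ 2 / T) := by field_simp; ring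
    linarith
  · rw [e]
    have : -(2 * Q * s) + Q ^ 2 * T + s ^ 2 / T = (Q * T - s) ^ 2 / T := by field_simp; ring
    have : 0 ≤ (Q * T - s) ^ 2 / T := by positivity
    linarith

/-- restriction to one block -/
lemma mp_block {ι : Type*} [Fintype ι] {κ : ι → Type*} [∀ c, Fintype (κ c)] (c : ι) :
    MeasurePreserving (fun x : (Σ c, κ c) → ℝ => fun k => x ⟨c, k⟩) (gauss (Σ c, κ c)) (gauss (κ c)) := by
  classical
  have hm : Measurable fun x : (Σ c, κ c) → ℝ => fun k => x ⟨c, k⟩ := by fun_prop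
  refine ⟨hm, Eq.symm <| Measure.pi_eq fun s hs => ?_⟩
  rw [Measure.map_apply hm (MeasurableSet.univ_pi hs)]
  have hpre : (fun x : (Σ c, κ c) → ℝ => fun k => x ⟨c, k⟩) ⁻¹' Set.univ.pi s =
      Set.univ.pi (fun q : Σ c, κ c => if h : q.1 = c then s (h ▸ q.2) else Set.univ) := by
    ext x
    simp only [Set.mem_preimage, Set.mem_univ_pi]
    refine ⟨fun h q => ?_, fun h k => by simpa using h ⟨c, k⟩⟩
    obtain ⟨d, k⟩ := q
    by_cases hd : d = c
    · subst hd; simpa using h k
    · simp [hd]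
  rw [hpre, gauss, Measure.pi_pi, Fintype.prod_sigma, Finset.prod_eq_single c]
  · simp
  · intro d _ hd
    refine Finset.prod_eq_one fun k _ => ?_
    simp [hd]
  · simp

namespace Sys

variable (M : Sys) {N : ℕ}

theorem superadd {k : ℕ} (n : Option (Fin k) → ℕ) (hcard : ∑ c, n c = N) (hN : 0 < N)
    (Q : Fin M.p → Fin M.p → ℝ) : ∑ c, M.G Q (n c) ≤ M.F N := by
  classical
  set κ := fun c => M.Idx (n c)
  set P := ∀ c, M.St (n c)
  obtain ⟨J, hJ, hSJ, hwJ⟩ := M.join k N n hN hcard
  set w : P → ℝ := fun f => ∏ c, M.wt (f c) * Real.exp (-M.pen Q (f c))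
  have hw : ∀ f, 0 < w f := fun f => Finset.prod_pos fun c _ => mul_pos (M.wt_pos _) (Real.exp_pos _)
  set a : P → (Σ c, κ c) → ℝ := fun f q => M.coef (f q.1) q.2
  set b : P → M.Idx N → ℝ := fun f => M.coef (J f)
  have hS0 : ∀ c (x y : M.St (n c)) j l, M.S x y j l = (n c : ℝ) * (M.S x y j l / n c) := fun c x y j l => by
    rcases eq_or_ne (n c) 0 with h | h
    · simp [M.S_zero x y j l h, h]
    · have h' : (n c : ℝ) ≠ 0 := by exact_mod_cast h
      field_simp
  have hNr : (N : ℝ) = ∑ c, (n c : ℝ) := by rw [← hcard]; push_cast; rfl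
  set V : ∀ c, M.St (n c) → M.St (n c) → Fin M.r → ℝ := fun c x y k =>
    ∑ j, ∑ l, M.A k j l * (M.S x y j l / n c)
  have hV : ∀ f f' k, ∑ j, ∑ l, M.A k j l * M.S (J f) (J f') j l = ∑ c, (n c : ℝ) * V c (f c) (f' c) k :=
    fun f f' k => by
      simp only [hSJ, V, Finset.mul_sum]
      rw [eq_comm, Finset.sum_comm]
      refine Finset.sum_congr rfl fun j _ => ?_
      rw [Finset.sum_comm]
      refine Finset.sum_congr rfl fun l _ => Finset.sum_congr rfl fun c _ => ?_
      rw [mul_left_comm, ← hS0]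
  have hd : ∀ f f' : P, cov a f f' - cov b f f' = 1 / 2 * ∑ k,
      (∑ c, (n c : ℝ) * V c (f c) (f' c) k ^ 2 -
        (∑ c, (n c : ℝ) * V c (f c) (f' c) k) ^ 2 / ∑ c, (n c : ℝ)) := fun f f' => by
    have ea : cov a f f' = ∑ c, ∑ q, M.coef (f c) q * M.coef (f' c) q := by
      simp only [cov, a, Fintype.sum_sigma]
      rfl
    rw [ea, cov, M.cov_eq]
    simp only [M.cov_eq, hV, ← hNr, mul_sub, Finset.sum_sub_distrib, Finset.mul_sum]
    congr 1
    · rw [Finset.sum_comm]
      refine Finset.sum_congr rfl fun k _ => Finset.sum_congr rfl fun c _ => ?_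
      have e : ∑ j, ∑ l, M.A k j l * M.S (f c) (f' c) j l = (n c : ℝ) * V c (f c) (f' c) k := by
        simp only [V, Finset.mul_sum]
        exact Finset.sum_congr rfl fun j _ => Finset.sum_congr rfl fun l _ => by rw [mul_left_comm, ← hS0]
      rw [e]
      rcases eq_or_ne (n c : ℝ) 0 with h | h
      · simp [h]
      · field_simp
    · refine Finset.sum_congr rfl fun k _ => ?_
      field_simp
  set gap : P → ℝ := fun f => cov a f f - cov b f f
  have hN' : 0 < ∑ c, n c := by rw [hcard]; exact hN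
  have hgap : ∀ f, 0 ≤ gap f ∧ gap f / 2 ≤ ∑ c, M.pen Q (f c) := fun f => by
    refine ⟨?_, ?_⟩
    · simp only [gap, hd]
      exact mul_nonneg (by norm_num) (Finset.sum_nonneg fun k _ => (gap_split n _ hN' 0).1)
    · simp only [gap, hd]
      have h1 := Finset.sum_le_sum fun k (_ : k ∈ Finset.univ) =>
        (gap_split n (fun c => V c (f c) (f c) k) hN' (∑ j, ∑ l, M.A k j l * Q j l)).2
      have h2 : ∑ k, ∑ c, (n c : ℝ) * (V c (f c) (f c) k - ∑ j, ∑ l, M.A k j l * Q j l) ^ 2 ≤
          4 * ∑ c, M.pen Q (f c) := by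
        rw [Finset.sum_comm, Finset.mul_sum]
        refine Finset.sum_le_sum fun c _ => ?_
        have e : ∀ k, V c (f c) (f c) k - ∑ j, ∑ l, M.A k j l * Q j l =
            ∑ j, ∑ l, M.A k j l * (M.S (f c) (f c) j l / n c - Q j l) := fun k => by
          simp only [V, mul_sub, Finset.sum_sub_distrib]
        simp only [e]
        refine (Finset.sum_le_sum fun k _ =>
          mul_le_mul_of_nonneg_left (M.cs k _) (Nat.cast_nonneg (n c))).trans (le_of_eq ?_)
        simp only [pen, ← Finset.mul_sum, ← Finset.sum_mul, B]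
        ring
      linarith
  have hoff : ∀ f f', f ≠ f' → cov b f f' ≤ cov a f f' := fun f f' _ => by
    have : 0 ≤ cov a f f' - cov b f f' := by
      rw [hd]
      exact mul_nonneg (by norm_num) (Finset.sum_nonneg fun k _ => (gap_split n _ hN' 0).1)
    linarith
  have key := compare hw a b gap (fun f => (hgap f).1) (fun f => by simp only [gap]; ring) hoff
  refine le_trans (le_of_eq ?_) (key.trans ?_)
  · -- factorisation over the blocks
    set wc := fun c (x : M.St (n c)) => M.wt x * Real.exp (-M.pen Q x)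
    have hwc : ∀ c x, 0 < wc c x := fun c x => mul_pos (M.wt_pos _) (Real.exp_pos _)
    have hsplit : ∀ g, lse w (lin a g) =
        ∑ c, lse (wc c) (lin (fun x : M.St (n c) => M.coef x) fun q => g ⟨c, q⟩) := fun g => by
      simp only [lse]
      rw [← Real.log_prod fun c _ => (z_pos (hwc c) _).ne', Fintype.prod_sum]
      congr 1
      refine Finset.sum_congr rfl fun f _ => ?_
      simp only [w, wc, lin, a, Fintype.sum_sigma, Real.exp_sum, ← Finset.prod_mul_distrib]
      rfl
    have hi : ∀ c, Integrable (fun g : (Σ c, κ c) → ℝ => lse (wc c) (lin (fun x : M.St (n c) => M.coef x) fun q => g ⟨c, q⟩))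
        (gauss (Σ c, κ c)) := fun c =>
      ((mp_block (κ := κ) c).integrable_comp (integrable_lse (hwc c) _).aestronglyMeasurable).2 (integrable_lse (hwc c) _)
    simp only [hsplit]
    rw [integral_finsetSum _ fun c _ => hi c]
    refine Finset.sum_congr rfl fun c _ => ?_
    have h := mp_block (κ := κ) c
    have hc : Continuous fun y : κ c → ℝ => lse (wc c) (lin (fun x : M.St (n c) => M.coef x) y) :=
      (smooth_lse (hwc c)).cont.comp (Pattern.continuous_lin _)
    rw [G, ← h.map_eq]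
    exact integral_map h.measurable.aemeasurable hc.aestronglyMeasurable
  · refine integral_mono (integrable_lse (fun f => mul_pos (hw f) (Real.exp_pos _)) b)
      (integrable_lse (fun x : M.St N => M.wt_pos _) _) fun g => ?_
    refine Real.log_le_log (z_pos (fun f => mul_pos (hw f) (Real.exp_pos _)) _) ?_
    refine le_trans (Finset.sum_le_sum fun f _ => ?_)
      (le_of_eq_of_le (Finset.sum_image (g := J)
        (f := fun x : M.St N => M.wt x * Real.exp (lin (fun x : M.St N => M.coef x) g x)) hJ.injOn).symm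
        (Finset.sum_le_sum_of_subset_of_nonneg (Finset.subset_univ _) fun x _ _ =>
          mul_nonneg (M.wt_pos _).le (Real.exp_pos _).le))
    refine mul_le_mul_of_nonneg_right ?_ (Real.exp_pos _).le
    simp only [w, Finset.prod_mul_distrib, ← Real.exp_sum, mul_assoc, ← Real.exp_add]
    refine le_trans (mul_le_of_le_one_right (Finset.prod_nonneg fun c _ => (M.wt_pos _).le) (Real.exp_le_one_iff.2 ?_)) (hwJ f)
    rw [Finset.sum_neg_distrib]
    linarith [(hgap f).2]

/-- self overlaps are bounded -/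
lemma pen_x0_le (Q : Fin M.p → Fin M.p → ℝ) (hQ : ∀ j l, |Q j l| ≤ M.D) (N : ℕ) :
    M.pen Q (M.x0 N) ≤ M.B * (M.p : ℝ) ^ 2 * M.D ^ 2 * N := by
  have h : ∀ j l, (N : ℝ) * (M.S (M.x0 N) (M.x0 N) j l / N - Q j l) ^ 2 ≤ N * (2 * M.D) ^ 2 := by
    intro j l
    rcases eq_or_ne N 0 with h | h
    · simp [h]
    have hN : (0:ℝ) < N := by exact_mod_cast Nat.pos_of_ne_zero h
    refine mul_le_mul_of_nonneg_left (sq_le_sq.2 ?_) hN.le
    have h1 := M.abs_S (M.x0 N) (M.x0 N) j l
    have h2 : |M.S (M.x0 N) (M.x0 N) j l / N| ≤ M.D := by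
      rw [abs_div, abs_of_pos hN, div_le_iff₀ hN]; exact h1
    rw [abs_of_nonneg (by linarith [M.D_nonneg] : 0 ≤ 2 * M.D)]
    exact (abs_sub _ _).trans (by linarith [hQ j l])
  refine (mul_le_mul_of_nonneg_left (Finset.sum_le_sum fun j _ => Finset.sum_le_sum fun l _ => h j l)
    (by have := M.B_nonneg; positivity)).trans (le_of_eq ?_)
  simp only [Finset.sum_const, Finset.card_univ, Fintype.card_fin, nsmul_eq_mul]
  ring

/-- a linear lower bound -/
lemma G_lower (Q : Fin M.p → Fin M.p → ℝ) (hQ : ∀ j l, |Q j l| ≤ M.D) (N : ℕ) :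
    -(M.E + M.B * (M.p : ℝ) ^ 2 * M.D ^ 2) * N ≤ M.G Q N := by
  set w := fun x : M.St N => M.wt x * Real.exp (-M.pen Q x)
  set c := fun x : M.St N => M.coef x
  have hw : ∀ x, 0 < w x := fun x => mul_pos (M.wt_pos _) (Real.exp_pos _)
  set x : M.St N := M.x0 N
  have hi : Integrable (fun g => lin c g x) (gauss (M.Idx N)) :=
    integrable_finsetSum _ fun q _ =>
      (Pattern.integrable_poly (continuous_apply q) (Pattern.poly_coord q)).const_mul _
  have h0 : ∫ g, lin c g x ∂gauss (M.Idx N) = 0 := by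
    simp only [lin]
    rw [integral_finsetSum _ fun q _ =>
      (Pattern.integrable_poly (continuous_apply q) (Pattern.poly_coord q)).const_mul _]
    refine Finset.sum_eq_zero fun q _ => ?_
    rw [integral_const_mul]
    have h := measurePreserving_eval (fun _ : M.Idx N => gaussianReal 0 1) q
    have e : ∫ g, g q ∂gauss (M.Idx N) = ∫ t, t ∂gaussianReal 0 1 := by
      have e2 : gaussianReal 0 1 = (gauss (M.Idx N)).map fun g => g q := h.map_eq.symm
      rw [e2, integral_map h.measurable.aemeasurable (by fun_prop)]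
    rw [e, integral_id_gaussianReal, mul_zero]
  have hlow : ∀ g, Real.log (w x) + lin c g x ≤ lse w (lin c g) := fun g => by
    rw [← Real.log_exp (lin c g x), ← Real.log_mul (hw x).ne' (Real.exp_pos _).ne']
    exact Real.log_le_log (mul_pos (hw x) (Real.exp_pos _))
      (Finset.single_le_sum (f := fun x => w x * Real.exp (lin c g x))
        (fun y _ => mul_nonneg (hw y).le (Real.exp_pos _).le) (Finset.mem_univ x))
  refine le_trans ?_ (integral_mono ((integrable_const (Real.log (w x))).add hi) (integrable_lse hw c) hlow)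
  rw [integral_add' (integrable_const _) hi, h0, integral_const, probReal_univ, one_smul, add_zero]
  simp only [w, x]
  rw [Real.log_mul (M.wt_pos _).ne' (Real.exp_pos _).ne', Real.log_exp]
  have := M.pen_x0_le Q hQ N
  have := M.x0_wt N
  linarith

/-- a linear upper bound -/
lemma F_upper (N : ℕ) : M.F N ≤ (M.C + M.Cb) * N := by
  classical
  set w := fun x : M.St N => M.wt x
  set a := fun x : M.St N => M.coef x
  have hw : ∀ x, 0 < w x := fun x => M.wt_pos _
  have hnn : ∀ x y, 0 ≤ cov a x y := fun x y => by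
    rw [cov, M.cov_eq]
    exact mul_nonneg (by positivity) (Finset.sum_nonneg fun k _ => sq_nonneg _)
  have key := compare hw a (fun (_ : M.St N) (_ : Fin 0) => (0:ℝ)) (fun x => cov a x x)
    (fun x => hnn x x) (fun x => by simp [cov]) (fun x y _ => by simpa [cov] using hnn x y)
  refine key.trans ?_
  simp only [lse, lin, Finset.univ_eq_empty, Finset.sum_empty, Real.exp_zero, mul_one,
    integral_const, probReal_univ, one_smul]
  rw [Real.log_le_iff_le_exp (Finset.sum_pos (fun x _ => mul_pos (hw x) (Real.exp_pos _)) Finset.univ_nonempty)]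
  calc ∑ x, w x * Real.exp (cov a x x / 2) ≤ ∑ x, w x * Real.exp (M.Cb * N) := by
        refine Finset.sum_le_sum fun x _ => mul_le_mul_of_nonneg_left (Real.exp_le_exp.2 ?_) (hw x).le
        have := abs_le.1 (M.cov_le x x)
        linarith [hnn x x]
    _ ≤ Real.exp ((M.C + M.Cb) * N) := by
        rw [← Finset.sum_mul, add_mul, Real.exp_add]
        refine mul_le_mul_of_nonneg_right ?_ (Real.exp_pos _).le
        exact M.mass_le N

/-- concentration of the log partition function -/
lemma dev_le {w : M.St N → ℝ} (hw : ∀ x, 0 < w x) :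
    ∫ g, |lse w (lin (fun x : M.St N => M.coef x) g) -
      ∫ g', lse w (lin (fun x : M.St N => M.coef x) g') ∂gauss (M.Idx N)| ∂gauss (M.Idx N) ≤
      √(M.Cb * N) := by
  set c := fun x : M.St N => M.coef x
  set m := ∫ g', lse w (lin c g') ∂gauss (M.Idx N)
  set V := M.Cb * N
  have hv := variance_lse hw c (D := V) M.cov_le
  have hi := integrable_lse hw c
  have hsq : Integrable (fun g => (lse w (lin c g) - m) ^ 2) (gauss (M.Idx N)) :=
    Pattern.integrable_lin c (((smooth_lse hw).cont.sub continuous_const).pow 2)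
      (((poly_lse hw).sub (Pattern.Poly.const m)).pow 2)
  rcases le_or_gt V 0 with h | h
  · have h0 : ∫ g, (lse w (lin c g) - m) ^ 2 ∂gauss (M.Idx N) = 0 :=
      le_antisymm (hv.trans h) (integral_nonneg fun g => sq_nonneg _)
    have := (integral_eq_zero_iff_of_nonneg (fun g => sq_nonneg _) hsq).1 h0
    rw [integral_eq_zero_of_ae (this.mono fun g hg => by
      simp only [Pi.zero_apply, sq_eq_zero_iff] at hg
      simp [hg])]
    exact Real.sqrt_nonneg _
  · set s := √V
    have hs : 0 < s := Real.sqrt_pos.2 h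
    refine (integral_mono (hi.sub (integrable_const m)).abs ((hsq.div_const (2 * s)).add (integrable_const (s / 2)))
      fun g => ?_).trans ?_
    · simp only [Pi.add_apply]
      show |lse w (lin c g) - m| ≤ _
      rw [div_add_div _ _ (by positivity) two_ne_zero, le_div_iff₀ (by positivity)]
      nlinarith [sq_nonneg (|lse w (lin c g) - m| - s), sq_abs (lse w (lin c g) - m)]
    · rw [integral_add' (hsq.div_const _) (integrable_const _), integral_div, integral_const,
        probReal_univ, one_smul]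
      have := div_le_div_of_nonneg_right hv (show 0 ≤ 2 * s by positivity)
      have e : V / (2 * s) = s / 2 := by
        rw [div_eq_div_iff (by positivity) two_ne_zero]
        linear_combination (-2 : ℝ) * Real.mul_self_sqrt h.le
      linarith

/-- grid of self overlaps -/
def grid (K : ℕ) (k : Fin M.p → Fin M.p → Fin (2 * K + 1)) (j l : Fin M.p) : ℝ :=
  M.D * (((k j l : ℕ) : ℝ) / K - 1)

lemma grid_bound {K : ℕ} (hK : 0 < K) (k : Fin M.p → Fin M.p → Fin (2 * K + 1)) (j l : Fin M.p) (hD : 0 ≤ M.D) :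
    |M.grid K k j l| ≤ M.D := by
  have hK' : (0:ℝ) < K := by exact_mod_cast hK
  have h2 : ((k j l : ℕ) : ℝ) ≤ 2 * K := by exact_mod_cast Nat.lt_succ_iff.1 (k j l).2
  rw [grid, abs_mul, abs_of_nonneg hD]
  refine mul_le_of_le_one_right hD (abs_le.2 ⟨?_, ?_⟩)
  · have : 0 ≤ ((k j l : ℕ) : ℝ) / K := by positivity
    linarith
  · rw [sub_le_iff_le_add, div_le_iff₀ hK']; linarith

/-- some penalised system is close to the unpenalised one -/
theorem exists_pen {K : ℕ} (hK : 0 < K) (N : ℕ) :
    ∃ Q : Fin M.p → Fin M.p → ℝ, (∀ j l, |Q j l| ≤ M.D) ∧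
      M.F N ≤ M.G Q N + M.B / 4 * (M.p : ℝ) ^ 2 * (M.D / K) ^ 2 * N +
        Real.log (Fintype.card (Fin M.p → Fin M.p → Fin (2 * K + 1))) +
        Fintype.card (Fin M.p → Fin M.p → Fin (2 * K + 1)) * √(M.Cb * N) := by
  classical
  have hK' : (0:ℝ) < K := by exact_mod_cast hK
  have hD := M.D_nonneg
  set I := Fin M.p → Fin M.p → Fin (2 * K + 1)
  obtain ⟨k0, -, hk0⟩ := Finset.exists_max_image (Finset.univ : Finset I) (fun k => M.G (M.grid K k) N)
    Finset.univ_nonempty
  refine ⟨M.grid K k0, fun j l => M.grid_bound hK k0 j l hD, ?_⟩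
  set c := fun x : M.St N => M.coef x
  set wk := fun (k : I) (x : M.St N) => M.wt x * Real.exp (-M.pen (M.grid K k) x)
  have hwk : ∀ k x, 0 < wk k x := fun k x => mul_pos (M.wt_pos _) (Real.exp_pos _)
  set η := M.B / 4 * (M.p : ℝ) ^ 2 * (M.D / K) ^ 2 * N
  have hcov : ∀ x : M.St N, ∃ k : I, M.pen (M.grid K k) x ≤ η := fun x => by
    have hr : ∀ j l, ∃ k : Fin (2 * K + 1),
        (N : ℝ) * (M.S x x j l / N - M.D * (((k : ℕ) : ℝ) / K - 1)) ^ 2 ≤ N * (M.D / K) ^ 2 := fun j l => by
      rcases eq_or_ne N 0 with h0 | h0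
      · exact ⟨0, by subst h0; simp⟩
      have hN : (0:ℝ) < N := by exact_mod_cast Nat.pos_of_ne_zero h0
      set R := M.S x x j l / N
      have hR : |R| ≤ M.D := by
        simp only [R]; rw [abs_div, abs_of_pos hN, div_le_iff₀ hN]; exact M.abs_S x x j l
      rcases eq_or_lt_of_le hD with hD0 | hD0
      · refine ⟨0, ?_⟩
        rw [← hD0] at hR ⊢
        rw [abs_nonpos_iff.1 hR]; simp
      set u := (R / M.D + 1) * K
      have hu0 : 0 ≤ u := mul_nonneg (by
        have := (abs_le.1 hR).1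
        rw [← neg_le_iff_add_nonneg, le_div_iff₀ hD0]; linarith) hK'.le
      have hu1 : u ≤ 2 * K := mul_le_mul_of_nonneg_right (by
        have := (abs_le.1 hR).2
        rw [← le_sub_iff_add_le, div_le_iff₀ hD0]; linarith) hK'.le
      refine ⟨⟨⌊u⌋₊, ?_⟩, mul_le_mul_of_nonneg_left (sq_le_sq.2 ?_) hN.le⟩
      · rw [Nat.lt_succ_iff]; exact Nat.floor_le_of_le (by push_cast; exact hu1)
      · have f1 := Nat.floor_le hu0
        have f2 := Nat.lt_floor_add_one u
        have e : R - M.D * ((⌊u⌋₊ : ℝ) / K - 1) = M.D / K * (u - ⌊u⌋₊) := by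
          simp only [u]; field_simp; ring
        rw [e, abs_mul]
        exact mul_le_of_le_one_right (abs_nonneg _) (abs_le.2 ⟨by linarith, by linarith⟩)
    choose k hk using hr
    refine ⟨k, (mul_le_mul_of_nonneg_left (Finset.sum_le_sum fun j _ => Finset.sum_le_sum fun l _ => hk j l)
      (by have := M.B_nonneg; positivity)).trans (le_of_eq ?_)⟩
    simp only [Finset.sum_const, Finset.card_univ, Fintype.card_fin, nsmul_eq_mul, η]; ring
  choose kx hkx using hcov
  set m := fun k => ∫ g, lse (wk k) (lin c g) ∂gauss (M.Idx N)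
  have hdi : ∀ k, Integrable (fun g => |lse (wk k) (lin c g) - m k|) (gauss (M.Idx N)) := fun k =>
    ((integrable_lse (hwk k) c).sub (integrable_const _)).abs
  have hpt : ∀ g, M.L N g ≤ M.G (M.grid K k0) N + η + Real.log (Fintype.card I) +
      ∑ k, |lse (wk k) (lin c g) - m k| := fun g => by
    set U := M.G (M.grid K k0) N + ∑ k, |lse (wk k) (lin c g) - m k|
    have hU : ∀ k, lse (wk k) (lin c g) ≤ U := fun k => by
      have h1 := hk0 k (Finset.mem_univ k)
      have h2 := Finset.single_le_sum (f := fun k => |lse (wk k) (lin c g) - m k|) (fun _ _ => abs_nonneg _)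
        (Finset.mem_univ k)
      have h3 := le_abs_self (lse (wk k) (lin c g) - m k)
      have h4 : m k = M.G (M.grid K k) N := rfl
      simp only [U]; linarith
    have hcard : (0:ℝ) < Fintype.card I := by exact_mod_cast Fintype.card_pos
    have hb : ∑ x, M.wt x * Real.exp (lin c g x) ≤ Real.exp η * (Fintype.card I * Real.exp U) := by
      calc ∑ x, M.wt x * Real.exp (lin c g x)
          ≤ ∑ x, ∑ k, Real.exp η * (wk k x * Real.exp (lin c g x)) := by
            refine Finset.sum_le_sum fun x _ => le_trans ?_ (Finset.single_le_sum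
              (fun k _ => mul_nonneg (Real.exp_pos η).le (mul_nonneg (hwk k x).le (Real.exp_pos _).le))
              (Finset.mem_univ (kx x)))
            simp only [wk]
            rw [← mul_assoc (Real.exp η), mul_left_comm (Real.exp η), ← Real.exp_add]
            exact mul_le_mul_of_nonneg_right (le_mul_of_one_le_right (M.wt_pos _).le
              (Real.one_le_exp (by linarith [hkx x]))) (Real.exp_pos _).le
        _ = Real.exp η * ∑ k, ∑ x, wk k x * Real.exp (lin c g x) := by
            rw [Finset.sum_comm, Finset.mul_sum]; exact Finset.sum_congr rfl fun k _ => Finset.mul_sum .. |>.symm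
        _ ≤ Real.exp η * ∑ _k : I, Real.exp U := by
            refine mul_le_mul_of_nonneg_left (Finset.sum_le_sum fun k _ => ?_) (Real.exp_pos _).le
            rw [← Real.exp_log (z_pos (hwk k) (lin c g))]
            exact Real.exp_le_exp.2 (hU k)
        _ = _ := by simp
    have hl := Real.log_le_log (z_pos (fun x : M.St N => M.wt_pos x) _) hb
    rw [Real.log_mul (Real.exp_pos _).ne' (mul_pos hcard (Real.exp_pos _)).ne',
      Real.log_mul hcard.ne' (Real.exp_pos _).ne', Real.log_exp, Real.log_exp] at hl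
    show lse (fun x : M.St N => M.wt x) (lin c g) ≤ _
    simp only [U] at hl
    simp only [lse] at hl ⊢
    linarith
  refine (integral_mono (integrable_lse (fun x : M.St N => M.wt_pos x) c)
    ((integrable_const _).add (integrable_finsetSum _ fun k _ => hdi k)) hpt).trans ?_
  rw [integral_add' (integrable_const _) (integrable_finsetSum _ fun k _ => hdi k),
    integral_finsetSum _ fun k _ => hdi k, integral_const, probReal_univ, one_smul]
  refine add_le_add le_rfl ((Finset.sum_le_sum fun k _ => M.dev_le (hwk k)).trans (le_of_eq ?_))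
  simp only [Finset.sum_const, Finset.card_univ, nsmul_eq_mul, η, I]

/-- the free energy per site converges -/
theorem exists_limit : ∃ ℓ : ℝ, Tendsto (fun N : ℕ => M.F N / N) atTop (𝓝 ℓ) := by
  set u := fun N : ℕ => M.F N / N
  set E := M.E + M.B * (M.p : ℝ) ^ 2 * M.D ^ 2
  have hE : 0 ≤ E := by
    have := M.B_nonneg; have := M.E_nonneg; positivity
  -- the approximate superadditivity
  have key : ∀ ε : ℝ, 0 < ε → ∃ m0, ∀ m ≥ m0, ∃ N0, ∀ N ≥ N0, u m - ε ≤ u N := by
    intro ε hε
    obtain ⟨K, hK, hKε⟩ : ∃ K : ℕ, 0 < K ∧ M.B / 4 * (M.p : ℝ) ^ 2 * (M.D / K) ^ 2 ≤ ε / 4 := by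
      have h : Tendsto (fun K : ℕ => M.B / 4 * (M.p : ℝ) ^ 2 * (M.D / K) ^ 2) atTop (𝓝 0) := by
        simpa using ((tendsto_const_div_atTop_nhds_zero_nat M.D).pow 2).const_mul (M.B / 4 * (M.p : ℝ) ^ 2)
      obtain ⟨K, hK, hKl⟩ := ((eventually_gt_atTop 0).and (h.eventually (eventually_le_nhds (by positivity : (0:ℝ) < ε / 4)))).exists
      exact ⟨K, hK, hKl⟩
    set J : ℝ := ((Fintype.card (Fin M.p → Fin M.p → Fin (2 * K + 1)) : ℕ) : ℝ)
    have hsmall : Tendsto (fun m : ℕ => (Real.log J + J * √(M.Cb * m)) / m) atTop (𝓝 0) := by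
      have h1 : Tendsto (fun m : ℕ => Real.log J / m) atTop (𝓝 0) := tendsto_const_div_atTop_nhds_zero_nat _
      have h2 : Tendsto (fun m : ℕ => J * √(M.Cb) * (√(m:ℝ))⁻¹) atTop (𝓝 0) := by
        simpa using (tendsto_inv_atTop_zero.comp (Real.tendsto_sqrt_atTop.comp tendsto_natCast_atTop_atTop)).const_mul (J * √(M.Cb))
      have hCb : 0 ≤ M.Cb := by have := M.B_nonneg; unfold Cb; positivity
      refine (by simpa using h1.add h2 : Tendsto (fun m : ℕ => Real.log J / m + J * √(M.Cb) * (√(m:ℝ))⁻¹) atTop (𝓝 0)).congr'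
        ((eventually_gt_atTop 0).mono fun m hm => ?_)
      have hm' : (0:ℝ) < m := by exact_mod_cast hm
      have hs : √(m:ℝ) * √(m:ℝ) = m := Real.mul_self_sqrt hm'.le
      have : 0 < √(m:ℝ) := Real.sqrt_pos.2 hm'
      show _ = (Real.log J + J * √(M.Cb * m)) / m
      rw [Real.sqrt_mul hCb, eq_div_iff hm'.ne']
      field_simp
      linear_combination (-(J * √(M.Cb))) * hs
    obtain ⟨m0, hm0⟩ := eventually_atTop.1 ((eventually_gt_atTop 0).and
      (hsmall.eventually (eventually_le_nhds (by positivity : (0:ℝ) < ε / 4))))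
    refine ⟨m0, fun m hm => ?_⟩
    obtain ⟨hmpos, hms⟩ := hm0 m hm
    obtain ⟨Q, hQ, hQF⟩ := M.exists_pen hK m
    have hm' : (0:ℝ) < m := by exact_mod_cast hmpos
    have hG : u m - ε / 2 ≤ M.G Q m / m := by
      rw [le_div_iff₀ hm', sub_mul, div_mul_cancel₀ _ hm'.ne']
      rw [div_le_iff₀ hm'] at hms
      have := mul_le_mul_of_nonneg_right hKε hm'.le
      linarith
    have hbig : Tendsto (fun N : ℕ => (|M.G Q m / m| * m + E * m) / N) atTop (𝓝 0) := tendsto_const_div_atTop_nhds_zero_nat _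
    obtain ⟨N0, hN0⟩ := eventually_atTop.1 ((eventually_gt_atTop 0).and
      (hbig.eventually (eventually_le_nhds (by positivity : (0:ℝ) < ε / 2))))
    refine ⟨N0, fun N hN => ?_⟩
    obtain ⟨hNpos, hNs⟩ := hN0 N hN
    have hN' : (0:ℝ) < N := by exact_mod_cast hNpos
    set q := N / m
    set r := N % m
    have hqr : q * m + r = N := by rw [mul_comm]; exact Nat.div_add_mod N m
    have hr : (r:ℝ) ≤ m := by exact_mod_cast (Nat.mod_lt N hmpos).le
    set n : Option (Fin q) → ℕ := fun c => c.elim r fun _ => m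
    have hn : ∑ c, n c = N := by
      simp only [Fintype.card_fin, Fintype.sum_option, n, Option.elim, Finset.sum_const, Finset.card_univ,
        smul_eq_mul]
      rw [add_comm]; exact hqr
    have h := M.superadd n hn hNpos Q
    simp only [Fintype.sum_option, n, Option.elim, Finset.sum_const, Finset.card_univ, Fintype.card_fin,
      nsmul_eq_mul] at h
    have hl := M.G_lower Q hQ r
    set a := M.G Q m / m
    have ha : M.G Q m = a * m := by simp only [a]; field_simp
    have hqm : (q:ℝ) * m = N - r := by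
      have : ((q * m + r : ℕ) : ℝ) = N := by rw [hqr]
      push_cast at this; linarith
    rw [div_le_iff₀ hN'] at hNs
    rw [ha] at h
    show u m - ε ≤ M.F N / N
    rw [le_div_iff₀ hN']
    have h2 := mul_le_mul_of_nonneg_left hr hE
    have h3 : a * r ≤ |a| * m := (mul_le_mul_of_nonneg_right (le_abs_self a) (Nat.cast_nonneg r)).trans
      (mul_le_mul_of_nonneg_left hr (abs_nonneg a))
    have h4 := mul_le_mul_of_nonneg_right hG hN'.le
    have h5 : (q:ℝ) * (a * m) = a * N - a * r := by linear_combination a * hqm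
    linarith
  have hup : ∀ N, u N ≤ |M.C + M.Cb| := fun N => by
    rcases eq_or_ne N 0 with h | h
    · simp [u, h]
    have hN : (0:ℝ) < N := by exact_mod_cast Nat.pos_of_ne_zero h
    show M.F N / N ≤ _
    rw [div_le_iff₀ hN]
    exact (M.F_upper N).trans (mul_le_mul_of_nonneg_right (le_abs_self _) hN.le)
  have hbdd : IsBoundedUnder (· ≤ ·) atTop u := ⟨|M.C + M.Cb|, eventually_map.2 (.of_forall hup)⟩
  have hco : IsCoboundedUnder (· ≤ ·) atTop u := by
    obtain ⟨m0, hm0⟩ := key 1 one_pos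
    obtain ⟨N0, hN0⟩ := hm0 m0 le_rfl
    refine IsBoundedUnder.isCoboundedUnder_le ⟨u m0 - 1, eventually_map.2 ?_⟩
    exact eventually_atTop.2 ⟨N0, fun N hN => hN0 N hN⟩
  refine ⟨limsup u atTop, Metric.tendsto_nhds.2 fun ε hε => ?_⟩
  obtain ⟨m0, hm0⟩ := key (ε / 4) (by positivity)
  obtain ⟨m, hm, hum⟩ := frequently_atTop.1
    (frequently_lt_of_lt_limsup hco (show limsup u atTop - ε / 4 < limsup u atTop by linarith)) m0
  obtain ⟨N0, hN0⟩ := hm0 m hm
  filter_upwards [eventually_ge_atTop N0,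
    eventually_lt_of_limsup_lt (show limsup u atTop < limsup u atTop + ε by linarith) hbdd] with N hN hN2
  have := hN0 N hN
  show dist (u N) (limsup u atTop) < ε
  rw [Real.dist_eq, abs_lt]
  constructor <;> linarith

end Sys

end Vale.Agent.P166.Soft
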