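import Vale.Agent.P150.ResolventLaw
import Vale.Agent.P150.SKNorm
import Vale.Agent.P166.Soft.Defs
import Vale.Agent.P166.Pattern.Signed.Sphere
import Vale.Agent.P166.Pattern.Multi.Diag

/-!
Events of high probability for the Gaussian orthogonal ensemble, and what they say about the eigenvalues
of a single matrix.
-/

open MeasureTheory ProbabilityTheory Filter Matrix
open scoped Topology

noncomputable section

namespace Vale.Agent.P166.Soft

open P150 (Edge coupling res rtr trDefect shifted jmat disorder)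

variable {N : ℕ}

/-- off-diagonal couplings of the symmetrised array -/
def upg (g : Fin N × Fin N → ℝ) (e : Edge N) : ℝ := (g (e.1.1, e.1.2) + g (e.1.2, e.1.1)) / √2

lemma continuous_upg : Continuous (upg (N := N)) := continuous_pi fun e => by unfold upg; fun_prop

lemma map_upg (N : ℕ) : (Pattern.gauss (Fin N × Fin N)).map upg = disorder N := by
  set c : Edge N → Fin N × Fin N → ℝ := fun a k =>
    ((if k = (a.1.1, a.1.2) then 1 else 0) + if k = (a.1.2, a.1.1) then 1 else 0) / √2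
  have hlin : ∀ (a : Edge N) (x : Fin N × Fin N → ℝ), ∑ k, c a k * x k = upg x a := fun a x => by
    simp [c, upg, div_mul_eq_mul_div, ← Finset.sum_div, add_mul, Finset.sum_add_distrib]
  have horth : ∀ a b, ∑ k, c a k * c b k = if a = b then 1 else 0 := fun a b => by
    rw [hlin a (c b)]
    have h2 : √2 * √2 = (2:ℝ) := Real.mul_self_sqrt two_pos.le
    obtain ⟨⟨a1, a2⟩, ha⟩ := a
    obtain ⟨⟨b1, b2⟩, hb⟩ := b
    simp only at ha hb
    simp only [upg, c, Prod.mk.injEq, Subtype.mk.injEq]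
    by_cases h : a1 = b1 ∧ a2 = b2
    · obtain ⟨rfl, rfl⟩ := h
      simp only [and_self, if_true, ha.ne, ha.ne', if_false, zero_add, add_zero]
      field_simp
      linarith
    · rw [if_neg h]
      have h' : ¬(a1 = b2 ∧ a2 = b1) := fun ⟨x, y⟩ => lt_asymm ha (by rw [x, y]; exact hb)
      simp [h, h', and_comm]
  have := Pattern.Signed.map_orth c horth
  simp only [hlin] at this
  exact this

lemma continuous_goe (i k : Fin N) : Continuous fun g : Fin N × Fin N → ℝ => goe g i k := by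
  simp only [goe, Matrix.of_apply]
  fun_prop

lemma goe_eq (g : Fin N × Fin N → ℝ) (i k : Fin N) :
    goe g i k = coupling (upg g) i k / √(N:ℝ) + if i = k then goe g i i else 0 := by
  rcases lt_trichotomy i k with h | h | h
  · simp only [goe, Matrix.of_apply, coupling, upg, dif_pos h, if_neg h.ne, add_zero]
    rw [Real.sqrt_mul two_pos.le, div_div]
  · subst h
    simp [coupling]
  · simp only [goe, Matrix.of_apply, coupling, upg, dif_neg h.not_gt, dif_pos h, if_neg h.ne', add_zero]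
    rw [Real.sqrt_mul two_pos.le, div_div, add_comm]

/-- a point of the upper half plane with rational coordinates -/
def zpt (q η : ℚ) : ℂ := ((q:ℝ) : ℂ) + ((η:ℝ) : ℂ) * Complex.I

lemma zpt_im (q η : ℚ) : (zpt q η).im = η := by simp [zpt]

lemma zpt_re (q η : ℚ) : (zpt q η).re = q := by simp [zpt]

/-- couplings whose quadratic form exceeds `(2+5a)/(1-2a) √N` with `a = 1/(n+4)` -/
def normBad (n N : ℕ) : Set (Edge N → ℝ) :=
  {h | ∃ v : Fin N → ℝ, (2 + 5 * (1 / ((n:ℝ) + 4))) / (1 - 2 * (1 / ((n:ℝ) + 4))) *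
    √(N:ℝ) * ∑ i, v i ^ 2 < |∑ i, ∑ j, coupling h i j * (v i * v j)|}

lemma isOpen_normBad (n N : ℕ) : IsOpen (normBad n N) := by
  simp only [normBad, Set.ofPred_exists]
  refine isOpen_iUnion fun v => isOpen_lt continuous_const (Continuous.abs ?_)
  refine continuous_finsetSum _ fun i _ => continuous_finsetSum _ fun j _ => Continuous.mul ?_ continuous_const
  unfold coupling
  split_ifs <;> fun_prop

/-- failure of the self-consistent equation, of the norm bound, and of smallness of the diagonal -/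
def bad : (ℚ × ℚ × ℕ) ⊕ ℕ ⊕ ℕ → ∀ N : ℕ, Set (Fin N × Fin N → ℝ)
  | Sum.inl (q, η, k), _ => if 0 < η ∧ (η:ℝ) ≤ 1 ∧ ‖zpt q η‖ ≤ 4 then
      {g | 1 / ((k:ℝ) + 1) < ‖trDefect (zpt q η) (upg g)‖} else ∅
  | Sum.inr (Sum.inl n), N => upg ⁻¹' normBad n N
  | Sum.inr (Sum.inr n), N => {g | ∃ i, 1 / ((n:ℝ) + 1) < |goe g i i|}

lemma isOpen_bad (o : (ℚ × ℚ × ℕ) ⊕ ℕ ⊕ ℕ) (N : ℕ) : IsOpen (bad o N) := by
  rcases o with ⟨q, η, k⟩ | n | n
  · simp only [bad]
    split
    · next h =>
      have hz : 0 < (zpt q η).im := by rw [zpt_im]; exact_mod_cast h.1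
      have hT := (P150.continuous_rtr (n := N) hz).comp continuous_upg
      exact isOpen_lt continuous_const (((continuous_const.mul hT).sub continuous_const).sub (hT.pow 2)).norm
    · exact isOpen_empty
  · exact (isOpen_normBad n N).preimage continuous_upg
  · simp only [bad, Set.ofPred_exists]
    exact isOpen_iUnion fun i => isOpen_lt continuous_const (continuous_goe i i).abs

lemma real_preimage {A : Set (Edge N → ℝ)} (hA : MeasurableSet A) :
    (Pattern.gauss (Fin N × Fin N)).real (upg ⁻¹' A) = (disorder N).real A := by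
  rw [← map_upg, map_measureReal_apply continuous_upg.measurable hA]

lemma tendsto_bad (o : (ℚ × ℚ × ℕ) ⊕ ℕ ⊕ ℕ) :
    Tendsto (fun N => (Pattern.gauss (Fin N × Fin N)).real (bad o N)) atTop (𝓝 0) := by
  have hnat := tendsto_natCast_atTop_atTop (R := ℝ)
  rcases o with ⟨q, η, k⟩ | n | n
  · simp only [bad]
    split
    · next h =>
      set z := zpt q η
      have hz : 0 < z.im := by rw [zpt_im]; exact_mod_cast h.1
      have hz1 : z.im ≤ 1 := by rw [zpt_im]; exact h.2.1
      set t := 1 / ((k:ℝ) + 1)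
      have ht : 0 < t := by positivity
      have lim : Tendsto (fun N : ℕ => 42 / (t ^ 2 * z.im ^ 4) / (N:ℝ)) atTop (𝓝 0) :=
        tendsto_const_nhds.div_atTop hnat
      refine squeeze_zero' (.of_forall fun N => measureReal_nonneg) ?_ lim
      filter_upwards [eventually_gt_atTop 0] with N hN
      obtain ⟨iT, eT⟩ := P150.trDefect_small hN hz hz1 h.2.2
      have hT := P150.continuous_rtr (n := N) hz
      have hc : Continuous fun g : Edge N → ℝ => ‖trDefect z g‖ :=
        (((continuous_const.mul hT).sub continuous_const).sub (hT.pow 2)).norm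
      have hN' : (0:ℝ) < N := by exact_mod_cast hN
      calc (Pattern.gauss (Fin N × Fin N)).real (upg ⁻¹' {g | t < ‖trDefect z g‖})
          = (disorder N).real {g | t < ‖trDefect z g‖} := real_preimage (isOpen_lt continuous_const hc).measurableSet
        _ ≤ (disorder N).real {g | t ^ 2 ≤ ‖trDefect z g‖ ^ 2} :=
            measureReal_mono fun g (hg : t < ‖trDefect z g‖) => Set.mem_ofPred_eq ▸ (pow_le_pow_left₀ ht.le hg.le 2)
        _ ≤ 42 / ((N:ℝ) * z.im ^ 4) / t ^ 2 := by
            rw [le_div_iff₀ (pow_pos ht 2), mul_comm]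
            exact (mul_meas_ge_le_integral_of_nonneg (.of_forall fun g => sq_nonneg _) iT _).trans eT
        _ = _ := by field_simp
    · simp
  · set a := 1 / ((n:ℝ) + 4)
    have ha : 0 < a := by positivity
    have ha4 : a ≤ 1 / 4 := one_div_le_one_div_of_le (by norm_num) (by linarith [Nat.cast_nonneg (α := ℝ) n])
    obtain ⟨c, hc, hb⟩ := P150.opnorm_bound ha ha4 ha ha4
    have lim : Tendsto (fun N : ℕ => 2 * Real.exp (-(c * (N:ℝ)))) atTop (𝓝 0) := by
      simpa using ((Real.tendsto_exp_neg_atTop_nhds_zero).comp (hnat.const_mul_atTop hc)).const_mul 2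
    refine squeeze_zero' (.of_forall fun N => measureReal_nonneg) ?_ lim
    filter_upwards [eventually_gt_atTop 0] with N hN
    exact (real_preimage (isOpen_normBad n N).measurableSet).le.trans (hb N hN)
  · set t := 1 / ((n:ℝ) + 1)
    have ht : 0 < t := by positivity
    set C := ∫ x, x ^ 4 ∂gaussianReal 0 1
    have lim : Tendsto (fun N : ℕ => 4 * C / t ^ 4 / (N:ℝ)) atTop (𝓝 0) := tendsto_const_nhds.div_atTop hnat
    refine squeeze_zero' (.of_forall fun N => measureReal_nonneg) ?_ lim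
    filter_upwards [eventually_gt_atTop 0] with N hN
    have hN' : (0:ℝ) < N := by exact_mod_cast hN
    have key : ∀ i : Fin N, (Pattern.gauss (Fin N × Fin N)).real {g | t < |goe g i i|} ≤
        4 * C / ((N:ℝ) ^ 2 * t ^ 4) := fun i => by
      have hi : Integrable (fun x : Fin N × Fin N → ℝ => x (i, i) ^ 4) (Pattern.gauss (Fin N × Fin N)) :=
        Pattern.integrable_poly (by fun_prop) ((Pattern.poly_coord (i, i)).pow 4)
      have hC : ∫ x, x (i, i) ^ 4 ∂Pattern.gauss (Fin N × Fin N) = C := by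
        have h := measurePreserving_eval (fun _ : Fin N × Fin N => gaussianReal 0 1) (i, i)
        simp only [C]
        conv_rhs => rw [← h.map_eq]
        rw [integral_map h.measurable.aemeasurable (by fun_prop)]
        rfl
      have hm := mul_meas_ge_le_integral_of_nonneg (μ := Pattern.gauss (Fin N × Fin N))
        (.of_forall fun x => show 0 ≤ x (i, i) ^ 4 by positivity) hi ((N:ℝ) ^ 2 * t ^ 4 / 4)
      rw [hC] at hm
      rw [le_div_iff₀ (by positivity)]
      refine le_trans (le_of_eq (mul_comm _ _)) ?_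
      calc (N:ℝ) ^ 2 * t ^ 4 * (Pattern.gauss (Fin N × Fin N)).real {g | t < |goe g i i|}
          ≤ 4 * ((N:ℝ) ^ 2 * t ^ 4 / 4 *
              (Pattern.gauss (Fin N × Fin N)).real {g | (N:ℝ) ^ 2 * t ^ 4 / 4 ≤ g (i, i) ^ 4}) := by
            rw [← mul_assoc, show 4 * ((N:ℝ) ^ 2 * t ^ 4 / 4) = (N:ℝ) ^ 2 * t ^ 4 by ring]
            refine mul_le_mul_of_nonneg_left (measureReal_mono fun g (hg : t < _) => ?_) (by positivity)
            show (N:ℝ) ^ 2 * t ^ 4 / 4 ≤ g (i, i) ^ 4
            have h4 := pow_le_pow_left₀ ht.le hg.le 4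
            simp only [goe, Matrix.of_apply, abs_div, abs_of_nonneg (Real.sqrt_nonneg _), div_pow] at h4
            rw [show (√(2 * (N:ℝ))) ^ 4 = (2 * (N:ℝ)) ^ 2 by
                rw [show (4:ℕ) = 2 * 2 from rfl, pow_mul, Real.sq_sqrt (by positivity)],
              show |g (i, i) + g (i, i)| ^ 4 = 16 * g (i, i) ^ 4 by
                rw [show (4:ℕ) = 2 * 2 from rfl, pow_mul, sq_abs]; ring,
              le_div_iff₀ (by positivity)] at h4
            linarith
        _ ≤ 4 * C := mul_le_mul_of_nonneg_left hm (by norm_num)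
    calc (Pattern.gauss (Fin N × Fin N)).real (bad (Sum.inr (Sum.inr n)) N)
        = (Pattern.gauss (Fin N × Fin N)).real (⋃ i : Fin N, {g | t < |goe g i i|}) := by
          simp only [bad, Set.ofPred_exists, t]
      _ ≤ ∑ i : Fin N, (Pattern.gauss (Fin N × Fin N)).real {g | t < |goe g i i|} := measureReal_iUnion_fintype_le _
      _ ≤ ∑ _i : Fin N, 4 * C / ((N:ℝ) ^ 2 * t ^ 4) := Finset.sum_le_sum fun i _ => key i
      _ = _ := by
          rw [Finset.sum_const, Finset.card_univ, Fintype.card_fin, nsmul_eq_mul]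
          field_simp

/-- one family of sets of probability tending to one avoiding every bad event eventually -/
theorem exists_good :
    ∃ G : ∀ N : ℕ, Set (Fin N × Fin N → ℝ), (∀ N, MeasurableSet (G N)) ∧
      Tendsto (fun N => (Pattern.gauss (Fin N × Fin N)).real (G N)) atTop (𝓝 1) ∧
      ∀ g : ∀ N, Fin N × Fin N → ℝ, (∀ᶠ N in atTop, g N ∈ G N) → ∀ o, ∀ᶠ N in atTop, g N ∉ bad o N := by
  obtain ⟨e, he⟩ := exists_surjective_nat ((ℚ × ℚ × ℕ) ⊕ ℕ ⊕ ℕ)
  set F : ℕ → ℕ → ℝ := fun k N => ∑ j ∈ Finset.range (k + 1), (Pattern.gauss (Fin N × Fin N)).real (bad (e j) N)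
  obtain ⟨κ, hκ, hF⟩ := Pattern.Multi.diag F fun k => by
    simpa [F] using tendsto_finsetSum (Finset.range (k + 1)) fun j _ => tendsto_bad (e j)
  have hmU : ∀ N : ℕ, MeasurableSet (⋃ j ∈ Finset.range (κ N + 1), bad (e j) N) := fun N =>
    Finset.measurableSet_biUnion _ fun j _ => (isOpen_bad _ N).measurableSet
  refine ⟨fun N => (⋃ j ∈ Finset.range (κ N + 1), bad (e j) N)ᶜ, fun N => (hmU N).compl, ?_, fun g hg o => ?_⟩
  · have h := (squeeze_zero (fun N => measureReal_nonneg) (fun N => measureReal_biUnion_finset_le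
      (Finset.range (κ N + 1)) (fun j => bad (e j) N)) hF).const_sub 1
    rw [sub_zero] at h
    exact h.congr fun N => (probReal_compl_eq_one_sub (hmU N)).symm
  · obtain ⟨j, rfl⟩ := he o
    filter_upwards [hg, hκ.eventually (eventually_ge_atTop j)] with N hN hj hc
    exact hN (Set.mem_biUnion (Finset.mem_range.2 (Nat.lt_succ_of_le hj)) hc)

lemma quad_row {g : Fin N × Fin N → ℝ} {lam : Fin N → ℝ} {Q : Matrix (Fin N) (Fin N) ℝ}
    (hQ : Q ∈ Matrix.orthogonalGroup (Fin N) ℝ) (hJ : goe g = Qᵀ * Matrix.diagonal lam * Q) (i : Fin N) :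
    ∑ a, ∑ b, goe g a b * (Q i a * Q i b) = lam i ∧ ∑ a, Q i a ^ 2 = 1 := by
  have h1 : Q * Qᵀ = 1 := by simpa using (Matrix.mem_orthogonalGroup_iff _ _).1 hQ
  have h2 : Q * goe g * Qᵀ = Matrix.diagonal lam := by
    rw [hJ, ← Matrix.mul_assoc, ← Matrix.mul_assoc, h1, Matrix.one_mul, Matrix.mul_assoc, h1, Matrix.mul_one]
  have e := congrFun (congrFun h2 i) i
  simp only [Matrix.mul_apply, Matrix.transpose_apply, Finset.sum_mul, Matrix.diagonal_apply_eq] at e
  refine ⟨?_, ?_⟩
  · rw [← e, Finset.sum_comm]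
    exact Finset.sum_congr rfl fun b _ => Finset.sum_congr rfl fun a _ => by ring
  · simpa [Matrix.mul_apply, sq] using congrFun (congrFun h1 i) i

lemma lam_le {g : Fin N × Fin N → ℝ} {lam : Fin N → ℝ} {Q : Matrix (Fin N) (Fin N) ℝ}
    (hQ : Q ∈ Matrix.orthogonalGroup (Fin N) ℝ) (hJ : goe g = Qᵀ * Matrix.diagonal lam * Q) {b ε : ℝ}
    (hb : ∀ v : Fin N → ℝ, |∑ i, ∑ j, coupling (upg g) i j * (v i * v j)| ≤ b * √(N:ℝ) * ∑ i, v i ^ 2)
    (hd : ∀ i, |goe g i i| ≤ ε) (i : Fin N) : |lam i| ≤ b + ε := by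
  obtain ⟨h1, h2⟩ := quad_row hQ hJ i
  have hN : 0 < √(N:ℝ) := Real.sqrt_pos.2 (by exact_mod_cast i.pos)
  have h3 : lam i = (∑ a, ∑ c, coupling (upg g) a c * (Q i a * Q i c)) / √(N:ℝ) +
      ∑ a, goe g a a * Q i a ^ 2 := by
    rw [← h1, Finset.sum_div, ← Finset.sum_add_distrib]
    refine Finset.sum_congr rfl fun a _ => ?_
    have e : ∀ c, goe g a c * (Q i a * Q i c) = coupling (upg g) a c * (Q i a * Q i c) / √(N:ℝ) +
        if a = c then goe g a a * Q i a ^ 2 else 0 := fun c => by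
      conv_lhs => rw [goe_eq g a c]
      by_cases h : a = c
      · subst h
        simp only [if_true]
        ring
      · simp only [if_neg h]
        ring
    rw [Finset.sum_congr rfl fun c _ => e c, Finset.sum_add_distrib, Finset.sum_div, Finset.sum_ite_eq,
      if_pos (Finset.mem_univ a)]
  rw [h3]
  refine (abs_add_le _ _).trans (add_le_add ?_ ?_)
  · rw [abs_div, abs_of_pos hN, div_le_iff₀ hN]
    exact (hb fun a => Q i a).trans (le_of_eq (by rw [h2, mul_one]))
  · refine (Finset.abs_sum_le_sum_abs _ _).trans ?_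
    refine le_trans (Finset.sum_le_sum fun a _ => ?_) (le_of_eq (by rw [← Finset.mul_sum, h2, mul_one]) : ∑ a, ε * Q i a ^ 2 ≤ ε)
    rw [abs_mul, abs_of_nonneg (sq_nonneg (Q i a))]
    exact mul_le_mul_of_nonneg_right (hd a) (sq_nonneg _)

/-- the full matrix and its off-diagonal part have nearly the same normalised resolvent trace -/
theorem trace_close {g : Fin N × Fin N → ℝ} {lam : Fin N → ℝ} {Q : Matrix (Fin N) (Fin N) ℝ}
    (hQ : Q ∈ Matrix.orthogonalGroup (Fin N) ℝ) (hJ : goe g = Qᵀ * Matrix.diagonal lam * Q) (hN : 0 < N)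
    {z : ℂ} (hz : 0 < z.im) {ε : ℝ} (hd : ∀ i, |goe g i i| ≤ ε) :
    ‖(∑ i, 1 / (z - (lam i : ℂ))) / (N:ℂ) - rtr z (upg g)‖ ≤ ε / z.im ^ 2 := by
  have hN' : (0:ℝ) < N := by exact_mod_cast hN
  have hε : 0 ≤ ε := (abs_nonneg _).trans (hd ⟨0, hN⟩)
  set η := z.im
  set a : Fin N → ℂ := fun i => 1 / (z - (lam i : ℂ))
  have him : ∀ i, η ≤ ‖z - (lam i : ℂ)‖ := fun i => by
    have := Complex.abs_im_le_norm (z - (lam i : ℂ))
    simp only [Complex.sub_im, Complex.ofReal_im, sub_zero] at this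
    exact (le_abs_self _).trans this
  have hne : ∀ i, z - (lam i : ℂ) ≠ 0 := fun i => norm_pos_iff.1 (hz.trans_le (him i))
  have ha : ∀ i, ‖a i‖ ≤ 1 / η := fun i => by
    simp only [a, norm_div, norm_one]
    exact one_div_le_one_div_of_le hz (him i)
  have hQQ : Q * Qᵀ = 1 := by simpa using (Matrix.mem_orthogonalGroup_iff _ _).1 hQ
  set C := Complex.ofRealHom
  set P : Matrix (Fin N) (Fin N) ℂ := Q.map C
  have hP1 : P * Pᵀ = 1 := by
    rw [show Pᵀ = Qᵀ.map C from rfl, ← Matrix.map_mul, hQQ,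
      Matrix.map_one _ (map_zero C) (map_one C)]
  have hP2 : Pᵀ * P = 1 := mul_eq_one_comm.1 hP1
  set W := Pᵀ * Matrix.diagonal a * P
  set D : Matrix (Fin N) (Fin N) ℂ := Matrix.diagonal fun i => ((goe g i i : ℝ) : ℂ)
  set R := res z (upg g)
  have hJc : (goe g).map C = Pᵀ * Matrix.diagonal (fun i => (lam i : ℂ)) * P := by
    rw [hJ, Matrix.map_mul, Matrix.map_mul, Matrix.diagonal_map (map_zero C), show Qᵀ.map C = Pᵀ from rfl]
    rfl
  have hS : shifted z (upg g) = Pᵀ * Matrix.diagonal (fun i => z - (lam i : ℂ)) * P + D := by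
    have e : Pᵀ * Matrix.diagonal (fun i => z - (lam i : ℂ)) * P = z • (1 : Matrix (Fin N) (Fin N) ℂ) -
        (goe g).map C := by
      rw [hJc, show Matrix.diagonal (fun i => z - (lam i : ℂ)) =
          z • (1 : Matrix (Fin N) (Fin N) ℂ) - Matrix.diagonal fun i => (lam i : ℂ) by
        rw [Matrix.smul_one_eq_diagonal, Matrix.diagonal_sub], Matrix.mul_sub, Matrix.sub_mul, Matrix.mul_smul,
        Matrix.mul_one, Matrix.smul_mul, hP2]
    rw [e]
    ext i k
    simp only [shifted, jmat, D, C, Matrix.sub_apply, Matrix.add_apply, Matrix.smul_apply, Matrix.of_apply,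
      Matrix.map_apply, Matrix.diagonal_apply, Complex.ofRealHom_eq_coe]
    rw [goe_eq g i k]
    split_ifs <;> push_cast <;> ring
  have h1 : Pᵀ * Matrix.diagonal (fun i => z - (lam i : ℂ)) * P * W = 1 := by
    simp only [W]
    rw [show Pᵀ * Matrix.diagonal (fun i => z - (lam i : ℂ)) * P * (Pᵀ * Matrix.diagonal a * P) =
      Pᵀ * (Matrix.diagonal (fun i => z - (lam i : ℂ)) * (P * Pᵀ) * Matrix.diagonal a) * P by
        simp only [Matrix.mul_assoc], hP1, Matrix.mul_one, Matrix.diagonal_mul_diagonal]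
    rw [show (Matrix.diagonal fun i => (z - (lam i : ℂ)) * a i) = 1 by
      rw [← Matrix.diagonal_one]; congr 1; funext i; simp only [a]; field_simp [hne i], Matrix.mul_one, hP2]
  have h2 : W - R = R * (D * W) := by
    rw [sub_eq_iff_eq_add]
    conv_rhs => arg 2; rw [← Matrix.mul_one R, ← h1]
    rw [← Matrix.mul_add, ← Matrix.add_mul, add_comm D, ← hS, ← Matrix.mul_assoc,
      P150.res_mul_shifted hz, Matrix.one_mul]
  have hW : W.trace = ∑ i, a i := by
    simp only [W]
    rw [Matrix.trace_mul_cycle, hP1, Matrix.one_mul, Matrix.trace_diagonal]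
  set u : Fin N → Fin N → ℂ := fun l k => ((goe g k k : ℝ) : ℂ) * P l k
  have hT : (R * (D * W)).trace = ∑ l, (∑ i, P l i * (R *ᵥ u l) i) * a l := by
    rw [show R * (D * W) = R * D * Pᵀ * Matrix.diagonal a * P by simp only [W, Matrix.mul_assoc],
      Matrix.trace_mul_comm]
    refine Finset.sum_congr rfl fun l _ => ?_
    rw [Matrix.diag_apply, ← Matrix.mul_assoc, Matrix.mul_diagonal, Matrix.mul_assoc R D Pᵀ, Matrix.mul_apply]
    congr 1
    refine Finset.sum_congr rfl fun i _ => ?_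
    simp [Matrix.mul_apply, Matrix.mulVec, dotProduct, D, u, Matrix.diagonal_apply]
  have hnormP : ∀ l i, ‖P l i‖ = |Q l i| := fun l i => by simp [P, C, Complex.norm_real]
  have hPs : ∀ l, ∑ i, ‖P l i‖ ^ 2 = 1 := fun l => by
    simp only [hnormP, sq_abs]
    exact (quad_row hQ hJ l).2
  have hl : ∀ l, ‖∑ i, P l i * (R *ᵥ u l) i‖ ≤ ε / η := fun l => by
    have hu : ∑ k, Complex.normSq (u l k) ≤ ε ^ 2 := by
      refine le_trans (Finset.sum_le_sum fun k _ => ?_)
        (le_of_eq (by rw [← Finset.mul_sum, hPs l, mul_one]) : ∑ k, ε ^ 2 * ‖P l k‖ ^ 2 ≤ ε ^ 2)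
      simp only [u, Complex.normSq_eq_norm_sq, norm_mul, mul_pow, Complex.norm_real, Real.norm_eq_abs]
      exact mul_le_mul_of_nonneg_right (pow_le_pow_left₀ (abs_nonneg _) (hd k) 2) (sq_nonneg _)
    have hw : ∑ i, ‖(R *ᵥ u l) i‖ ^ 2 ≤ (ε / η) ^ 2 := by
      rw [div_pow, le_div_iff₀ (pow_pos hz 2), mul_comm]
      have := (P150.res_mulVec_le hz (upg g) (u l)).trans hu
      simpa [Complex.normSq_eq_norm_sq] using this
    refine (norm_sum_le _ _).trans ?_
    simp only [norm_mul]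
    refine (Real.sum_mul_le_sqrt_mul_sqrt Finset.univ _ _).trans ?_
    rw [hPs, Real.sqrt_one, one_mul]
    exact (Real.sqrt_le_sqrt hw).trans (le_of_eq (Real.sqrt_sq (by positivity)))
  have htot : ‖∑ i, a i - R.trace‖ ≤ (N:ℝ) * (ε / η ^ 2) := by
    rw [← hW, ← Matrix.trace_sub, h2, hT]
    refine (norm_sum_le_of_le _ (n := fun _ => ε / η ^ 2) fun l _ => ?_).trans (le_of_eq (by simp))
    rw [norm_mul]
    exact (mul_le_mul (hl l) (ha l) (norm_nonneg _) (by positivity)).trans (le_of_eq (by ring))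
  rw [show rtr z (upg g) = R.trace / (N:ℂ) from rfl, ← sub_div, norm_div, Complex.norm_natCast,
    div_le_iff₀ hN', mul_comm]
  exact htot

/-- the equation at a real point outside the spectrum from the defect just above it -/
theorem defect_real {g : Fin N × Fin N → ℝ} {lam : Fin N → ℝ} {Q : Matrix (Fin N) (Fin N) ℝ}
    (hQ : Q ∈ Matrix.orthogonalGroup (Fin N) ℝ) (hJ : goe g = Qᵀ * Matrix.diagonal lam * Q) (hN : 0 < N)
    {z : ℂ} (hz : 0 < z.im) (hη : z.im ≤ 1 / 16) (hw : 3 < |z.re|) (hw4 : |z.re| ≤ 7 / 2)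
    (hl : ∀ i, |lam i| ≤ 5 / 2) {ε : ℝ} (hd : ∀ i, |goe g i i| ≤ ε) (hε : ε ≤ z.im ^ 3) :
    |z.re * ((∑ i, 1 / (z.re - lam i)) / (N:ℝ)) - 1 - ((∑ i, 1 / (z.re - lam i)) / (N:ℝ)) ^ 2| ≤
      ‖trDefect z (upg g)‖ + 52 * z.im := by
  have hN' : (0:ℝ) < N := by exact_mod_cast hN
  set η := z.im
  set w := z.re
  set G := (∑ i, 1 / (w - lam i)) / (N:ℝ)
  set r := rtr z (upg g)
  set m := (∑ i, 1 / (z - (lam i : ℂ))) / (N:ℂ)
  have hd2 : ∀ i, 1 / 2 ≤ |w - lam i| := fun i => by linarith [abs_sub_abs_le_abs_sub w (lam i), hl i]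
  have hG : |G| ≤ 2 := by
    simp only [G]
    rw [abs_div, abs_of_pos hN', div_le_iff₀ hN']
    refine (Finset.abs_sum_le_sum_abs _ _).trans (le_of_le_of_eq (Finset.sum_le_sum (g := fun _ => (2:ℝ))
      fun i _ => ?_) (by simp; ring))
    rw [abs_div, abs_one, div_le_iff₀ (by linarith [hd2 i])]
    linarith [hd2 i]
  have hzn : ‖z‖ ≤ 5 := by linarith [Complex.norm_le_abs_re_add_abs_im z, abs_of_pos hz]
  have hwz : ‖(w:ℂ) - z‖ = η := by
    have : (w:ℂ) - z = (((-η : ℝ)) : ℂ) * Complex.I := by apply Complex.ext <;> simp [w, η]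
    rw [this, norm_mul, Complex.norm_I, mul_one, Complex.norm_real, Real.norm_eq_abs, abs_neg, abs_of_pos hz]
  have hmG : ‖(G:ℂ) - m‖ ≤ 4 * η := by
    simp only [G, m]
    push_cast
    rw [← sub_div, ← Finset.sum_sub_distrib, norm_div, Complex.norm_natCast, div_le_iff₀ hN']
    refine (norm_sum_le_of_le _ (n := fun _ => 4 * η) fun i _ => ?_).trans (le_of_eq (by simp; ring))
    have hn1 : 1 / 2 ≤ ‖z - (lam i : ℂ)‖ := by
      have := Complex.abs_re_le_norm (z - (lam i : ℂ))
      simp only [Complex.sub_re, Complex.ofReal_re] at this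
      exact (hd2 i).trans this
    have hn2 : 1 / 2 ≤ ‖(w:ℂ) - (lam i : ℂ)‖ := by
      rw [← Complex.ofReal_sub, Complex.norm_real, Real.norm_eq_abs]
      exact hd2 i
    rw [div_sub_div _ _ (norm_pos_iff.1 (by linarith)) (norm_pos_iff.1 (by linarith)), norm_div, norm_mul,
      one_mul, mul_one, sub_sub_sub_cancel_right, norm_sub_rev, hwz, div_le_iff₀ (by nlinarith)]
    nlinarith [mul_le_mul hn2 hn1 (by norm_num) (norm_nonneg _)]
  have hmr : ‖m - r‖ ≤ η := (trace_close hQ hJ hN hz hd).trans <| by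
    rw [div_le_iff₀ (pow_pos hz 2)]
    linarith [show η * η ^ 2 = η ^ 3 by ring]
  have hGr : ‖(G:ℂ) - r‖ ≤ 5 * η :=
    (norm_sub_le_norm_sub_add_norm_sub _ m _).trans (by linarith)
  have hGn : ‖(G:ℂ)‖ ≤ 2 := by rwa [Complex.norm_real, Real.norm_eq_abs]
  have hr : ‖r‖ ≤ 3 := by linarith [norm_le_norm_add_norm_sub' r (G:ℂ), norm_sub_rev r (G:ℂ)]
  have e : ((w * G - 1 - G ^ 2 : ℝ) : ℂ) =
      trDefect z (upg g) + (((w:ℂ) - z) * G + (z - ((G:ℂ) + r)) * ((G:ℂ) - r)) := by
    simp only [trDefect, r]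
    push_cast
    ring
  rw [← Real.norm_eq_abs, ← Complex.norm_real, e]
  refine (norm_add_le _ _).trans (add_le_add le_rfl ((norm_add_le _ _).trans ?_))
  rw [norm_mul, norm_mul, hwz]
  have h10 : ‖z - ((G:ℂ) + r)‖ ≤ 10 := (norm_sub_le _ _).trans (by linarith [norm_add_le (G:ℂ) r])
  linarith [mul_le_mul_of_nonneg_left hGn hz.le, mul_le_mul h10 hGr (norm_nonneg _) (by norm_num)]

end Vale.Agent.P166.Soft
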