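import Vale.Agent.P166.Soft.SemiEvents
import Vale.Agent.P166.Near

/-!
The semicircle law: almost every sequence of orthogonal ensemble matrices has admissible spectra, with the
extreme eigenvalues tending to `2` and `-2`.
-/

open MeasureTheory ProbabilityTheory Filter Matrix
open scoped Topology

noncomputable section

namespace Vale.Agent.P166.Soft

open Pattern.Multi (Law cauchy Carried Rk dom edgeR)

/-- normalised resolvent trace at a real point -/
def remp {N : ℕ} (lam : Fin N → ℝ) (w : ℝ) : ℝ := (∑ i, 1 / (w - lam i)) / (N:ℝ)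

/-- spectra obeying the semicircle equation outside an interval and without outliers -/
structure Semi (lam : ∀ N : ℕ, Fin N → ℝ) : Prop where
  bdd : ∀ δ : ℝ, 0 < δ → ∀ᶠ N : ℕ in atTop, ∀ i, |lam N i| ≤ 2 + δ
  eq : ∀ q : ℚ, 3 < |(q:ℝ)| → |(q:ℝ)| ≤ 7 / 2 →
    Tendsto (fun N : ℕ => (q:ℝ) * remp (lam N) q - 1 - remp (lam N) q ^ 2) atTop (𝓝 0)

lemma Semi.neg {lam : ∀ N : ℕ, Fin N → ℝ} (h : Semi lam) : Semi fun N i => -lam N i := by
  refine ⟨fun δ hδ => (h.bdd δ hδ).mono fun N hN i => by rw [abs_neg]; exact hN i, fun q h1 h2 => ?_⟩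
  have := h.eq (-q) (by simpa using h1) (by simpa using h2)
  refine this.congr fun N => ?_
  have e : remp (lam N) ((-q : ℚ) : ℝ) = -remp (fun i => -lam N i) q := by
    simp only [remp, ← neg_div, ← Finset.sum_neg_distrib]
    refine congrArg (· / (N:ℝ)) (Finset.sum_congr rfl fun i _ => ?_)
    push_cast
    rw [show -(q:ℝ) - lam N i = -((q:ℝ) - -lam N i) by ring, one_div, inv_neg]
    ring
  rw [e]
  push_cast
  ring

theorem semi_of_good {g : ∀ N, Fin N × Fin N → ℝ} {lam : ∀ N, Fin N → ℝ} {Q : ∀ N, Matrix (Fin N) (Fin N) ℝ}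
    (hQ : ∀ N, Q N ∈ Matrix.orthogonalGroup (Fin N) ℝ)
    (hJ : ∀ N, goe (g N) = (Q N)ᵀ * Matrix.diagonal (lam N) * Q N)
    (hg : ∀ o, ∀ᶠ N in atTop, g N ∉ bad o N) : Semi lam := by
  have hdiag : ∀ ε : ℝ, 0 < ε → ∀ᶠ N in atTop, ∀ i, |goe (g N) i i| ≤ ε := fun ε hε => by
    obtain ⟨n, hn⟩ := exists_nat_one_div_lt hε
    filter_upwards [hg (Sum.inr (Sum.inr n))] with N hN i
    by_contra hc
    exact hN ⟨i, hn.trans (not_le.1 hc)⟩
  have hbdd : ∀ δ : ℝ, 0 < δ → ∀ᶠ N : ℕ in atTop, ∀ i, |lam N i| ≤ 2 + δ := fun δ hδ => by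
    have hc : Tendsto (fun a : ℝ => (2 + 5 * a) / (1 - 2 * a)) (𝓝 0) (𝓝 2) := by
      have : ContinuousAt (fun a : ℝ => (2 + 5 * a) / (1 - 2 * a)) 0 :=
        ContinuousAt.div (by fun_prop) (by fun_prop) (by norm_num)
      simpa [ContinuousAt] using this
    have hl : Tendsto (fun n : ℕ => 1 / ((n:ℝ) + 4)) atTop (𝓝 0) :=
      tendsto_const_nhds.div_atTop (tendsto_natCast_atTop_atTop.atTop_add tendsto_const_nhds)
    obtain ⟨n, hn⟩ := ((hc.comp hl).eventually (eventually_le_nhds (show (2:ℝ) < 2 + δ / 2 by linarith))).exists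
    filter_upwards [hg (Sum.inr (Sum.inl n)), hdiag (δ / 2) (half_pos hδ)] with N hN hd i
    refine (lam_le (hQ N) (hJ N) (b := 2 + δ / 2) (fun v => ?_) hd i).trans (by linarith)
    by_contra hc
    refine hN ⟨v, lt_of_le_of_lt ?_ (not_le.1 hc)⟩
    exact mul_le_mul_of_nonneg_right (mul_le_mul_of_nonneg_right hn (Real.sqrt_nonneg _))
      (Finset.sum_nonneg fun i _ => sq_nonneg _)
  refine ⟨hbdd, fun q h1 h2 => Metric.tendsto_nhds.2 fun t ht => ?_⟩
  obtain ⟨m, hm⟩ := exists_nat_one_div_lt (show (0:ℝ) < t / 120 by linarith)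
  set η : ℚ := 1 / ((m:ℚ) + 16)
  have hη : (η:ℝ) = 1 / ((m:ℝ) + 16) := by simp [η]
  have hη0 : 0 < (η:ℝ) := by rw [hη]; positivity
  have hη1 : (η:ℝ) ≤ 1 / 16 := by
    rw [hη]; exact one_div_le_one_div_of_le (by norm_num) (by linarith [Nat.cast_nonneg (α := ℝ) m])
  have hηt : (η:ℝ) < t / 120 := lt_of_le_of_lt (by rw [hη]; exact one_div_le_one_div_of_le (by positivity) (by linarith)) hm
  obtain ⟨k, hk⟩ := exists_nat_one_div_lt (show (0:ℝ) < t / 4 by linarith)
  have hcond : 0 < η ∧ (η:ℝ) ≤ 1 ∧ ‖zpt q η‖ ≤ 4 := by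
    refine ⟨by exact_mod_cast hη0, by linarith, (Complex.norm_le_abs_re_add_abs_im _).trans ?_⟩
    rw [zpt_re, zpt_im, abs_of_pos hη0]
    linarith
  filter_upwards [hbdd (1 / 2) (by norm_num), hdiag ((η:ℝ) ^ 3) (pow_pos hη0 3), hg (Sum.inl (q, η, k)),
    eventually_gt_atTop 0] with N hl hd hT hN
  have hT' : ‖P150.trDefect (zpt q η) (upg (g N))‖ ≤ 1 / ((k:ℝ) + 1) := by
    simp only [bad, if_pos hcond] at hT
    exact not_lt.1 hT
  have := defect_real (hQ N) (hJ N) hN (z := zpt q η) (by rw [zpt_im]; exact hη0) (by rw [zpt_im]; exact hη1)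
    (by rw [zpt_re]; exact h1) (by rw [zpt_re]; exact h2) (fun i => (hl i).trans (by norm_num)) hd
    (by rw [zpt_im])
  rw [zpt_re, zpt_im] at this
  rw [Real.dist_eq, sub_zero]
  simp only [remp]
  linarith

/-- a cluster law of such spectra -/
theorem semi_cluster {lam : ∀ N : ℕ, Fin N → ℝ} (h : Semi lam) (U : Ultrafilter ℕ) (hU : (U : Filter ℕ) ≤ atTop) :
    ∃ μ : Measure ℝ, Law μ (-3) 3 ∧ (∀ᵐ x ∂μ, |x| ≤ 2) ∧
      (∀ w, 3 < w → w = 1 / cauchy μ w + cauchy μ w) ∧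
      ∀ g : BoundedContinuousFunction ℝ ℝ,
        Tendsto (fun N : ℕ => (∑ i, g (lam N i)) / (N:ℝ)) (U : Filter ℕ) (𝓝 (∫ x, g x ∂μ)) := by
  have hb : ∀ᶠ N : ℕ in atTop, ∀ i, |lam N i| ≤ (3:ℝ) := (h.bdd 1 one_pos).mono fun N hN i => by
    linarith [hN i]
  obtain ⟨μ, hμ, hlim⟩ := Pattern.Multi.exists_cluster_bdd (L := 3) (by norm_num) hb U hU
  have := hμ.prob
  refine ⟨μ, hμ, ?_, ?_, fun g => hlim g g.continuous.continuousOn g.continuous.measurable⟩
  · have h2 : ∀ n : ℕ, ∀ᵐ x ∂μ, |x| ≤ 2 + 1 / ((n:ℝ) + 1) := fun n => by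
      set e := 2 + 1 / ((n:ℝ) + 1)
      set g : ℝ → ℝ := fun x => max 0 (min 1 (|x| - e))
      have hg0 : ∀ x, 0 ≤ g x := fun x => le_max_left _ _
      have hlim0 : ∫ x, g x ∂μ = 0 := by
        refine tendsto_nhds_unique (hlim g (by fun_prop) (by fun_prop)) (tendsto_const_nhds.congr' ?_)
        refine Filter.Eventually.filter_mono hU ?_
        filter_upwards [h.bdd _ (show (0:ℝ) < 1 / ((n:ℝ) + 1) by positivity)] with N hN
        have : ∀ i, g (lam N i) = 0 := fun i =>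
          max_eq_left ((min_le_right _ _).trans (by linarith [hN i]))
        simp [this]
      have hgi : Integrable g μ := Integrable.of_bound (by fun_prop : Continuous g).aestronglyMeasurable 1
        (.of_forall fun x => by rw [Real.norm_eq_abs, abs_of_nonneg (hg0 x)]; exact max_le zero_le_one (min_le_left _ _))
      filter_upwards [(integral_eq_zero_iff_of_nonneg hg0 hgi).1 hlim0] with x hx
      by_contra hc
      push Not at hc
      have : 0 < g x := lt_max_of_lt_right (lt_min one_pos (by linarith))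
      simp only [Pi.zero_apply] at hx
      linarith
    filter_upwards [ae_all_iff.2 h2] with x hx
    refine le_of_forall_pos_le_add fun d hd => ?_
    obtain ⟨n, hn⟩ := exists_nat_one_div_lt hd
    linarith [hx n]
  · set φ := fun w => w * cauchy μ w - 1 - cauchy μ w ^ 2
    have han : AnalyticOnNhd ℝ φ (Set.Ioi 3) := fun w hw => by
      have hG := (Pattern.Multi.cauchy_series hμ hw).analyticAt
      exact ((analyticAt_id.mul hG).sub analyticAt_const).sub (hG.pow 2)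
    have hrat : ∀ q : ℚ, 3 < (q:ℝ) → (q:ℝ) ≤ 7 / 2 → φ q = 0 := fun q h1 h2 => by
      have hG : Tendsto (fun N : ℕ => remp (lam N) q) (U : Filter ℕ) (𝓝 (cauchy μ q)) :=
        hlim (fun x => 1 / ((q:ℝ) - x)) (continuousOn_const.div (by fun_prop) fun x hx => by linarith [hx.2])
          (by fun_prop)
      exact tendsto_nhds_unique (((hG.const_mul (q:ℝ)).sub_const 1).sub (hG.pow 2))
        ((h.eq q (by rwa [abs_of_pos (by linarith)]) (by rwa [abs_of_pos (by linarith)])).mono_left hU)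
    have hloc : ∀ w ∈ Set.Ioo (3:ℝ) (7 / 2), φ w = 0 := fun w hw => by
      by_contra hne
      have h1 : ∀ᶠ v in 𝓝 w, φ v ≠ 0 ∧ v ∈ Set.Ioo (3:ℝ) (7 / 2) :=
        ((han w hw.1).continuousAt.eventually_ne hne).and (isOpen_Ioo.mem_nhds hw)
      obtain ⟨q, hq⟩ := (Rat.denseRange_cast (𝕜 := ℝ)).exists_mem_open
        (isOpen_interior (s := {v | φ v ≠ 0 ∧ v ∈ Set.Ioo (3:ℝ) (7 / 2)})) ⟨w, mem_interior_iff_mem_nhds.2 h1⟩
      obtain ⟨hv, hv1, hv2⟩ := interior_subset hq
      exact hv (hrat q hv1 hv2.le)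
    intro w hw
    have h0 : φ w = 0 := han.eqOn_zero_of_preconnected_of_eventuallyEq_zero isPreconnected_Ioi
      (show (13 / 4 : ℝ) ∈ Set.Ioi (3:ℝ) from (by norm_num : (3:ℝ) < 13 / 4))
      (Filter.eventually_of_mem (isOpen_Ioo.mem_nhds (by constructor <;> norm_num)) hloc) hw
    have hp := Pattern.Multi.cauchy_pos hμ hw
    simp only [φ] at h0
    field_simp
    linarith

/-- the kernel measure of the semicircle law -/
lemma carried_dirac : Carried (Measure.dirac (0:ℝ)) 0 :=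
  ⟨inferInstance, le_rfl, by simp [ae_dirac_eq]⟩

lemma Rk_dirac (y : ℝ) : Rk 0 (Measure.dirac (0:ℝ)) y = y := by simp [Rk, integral_dirac]

lemma semi_unique {μ μ' : Measure ℝ} (h : Law μ (-3) 3) (h' : Law μ' (-3) 3)
    (e : ∀ w, 3 < w → w = 1 / cauchy μ w + cauchy μ w) (e' : ∀ w, 3 < w → w = 1 / cauchy μ' w + cauchy μ' w)
    (g : BoundedContinuousFunction ℝ ℝ) : ∫ x, g x ∂μ = ∫ x, g x ∂μ' :=
  Pattern.Multi.integral_unique h h' (Pattern.Multi.cauchy_unique carried_dirac 0 h h'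
    ((eventually_gt_atTop 3).mono fun w hw => by rw [Rk_dirac]; exact e w hw)
    ((eventually_gt_atTop 3).mono fun w hw => by rw [Rk_dirac]; exact e' w hw)) g

lemma two_le_top {μ : Measure ℝ} (h : Law μ (-3) 3) (e : ∀ w, 3 < w → w = 1 / cauchy μ w + cauchy μ w) :
    2 ≤ sSup μ.support := by
  have := h.prob
  have htop : sSup (Measure.dirac (0:ℝ)).support = 0 :=
    le_antisymm carried_dirac.top_le carried_dirac.top_nonneg
  have hbA : BddAbove μ.support :=
    bddAbove_Icc.mono (Measure.support_subset_of_isClosed isClosed_Icc h.mem)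
  have hlow : ∀ y ∈ dom (Measure.dirac (0:ℝ)), 2 ≤ 1 / y + Rk 0 (Measure.dirac (0:ℝ)) y := fun y hy => by
    rw [Rk_dirac, div_add' _ _ _ hy.1.ne', le_div_iff₀ hy.1]
    nlinarith [sq_nonneg (y - 1)]
  have h2 : 2 ≤ edgeR 0 (Measure.dirac (0:ℝ)) := by
    refine le_csInf ⟨_, Set.mem_image_of_mem _ (show (1:ℝ) ∈ dom (Measure.dirac (0:ℝ)) from
      ⟨one_pos, by rw [htop]; norm_num⟩)⟩ ?_
    rintro _ ⟨y, hy, rfl⟩
    exact hlow y hy
  refine h2.trans (Pattern.Multi.edge_le_top carried_dirac 0 (L := -3) ⟨h.prob, ?_⟩ ?_ ⟨2, ?_⟩)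
  · filter_upwards [h.mem, Measure.support_mem_ae (μ := μ)] with x hx hx'
    exact ⟨hx.1, le_csSup hbA hx'⟩
  · filter_upwards [eventually_gt_atTop 3] with w hw
    rw [htop, mul_zero, Rk_dirac]
    exact ⟨one_pos, e w hw⟩
  · rintro _ ⟨y, hy, rfl⟩
    exact hlow y hy

theorem exists_eig_goe {N : ℕ} (g : Fin N × Fin N → ℝ) :
    ∃ (lam : Fin N → ℝ) (Q : Matrix (Fin N) (Fin N) ℝ), Q ∈ Matrix.orthogonalGroup (Fin N) ℝ ∧
      goe g = Qᵀ * Matrix.diagonal lam * Q := by
  have hh : (goe g).IsHermitian := by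
    rw [Matrix.IsHermitian, Matrix.conjTranspose_eq_transpose_of_trivial]
    ext i k
    simp only [Matrix.transpose_apply, goe, Matrix.of_apply, add_comm]
  set U : Matrix (Fin N) (Fin N) ℝ := (hh.eigenvectorUnitary : Matrix (Fin N) (Fin N) ℝ)
  have hU1 : Uᵀ * U = 1 := by
    have := (Matrix.mem_unitaryGroup_iff').1 hh.eigenvectorUnitary.2
    simpa [U, Matrix.star_eq_conjTranspose] using this
  have hW : goe g = U * Matrix.diagonal hh.eigenvalues * Uᵀ := by
    have := hh.spectral_theorem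
    simp only [Unitary.conjStarAlgAut_apply] at this
    simpa [U, Matrix.star_eq_conjTranspose, Function.comp_def] using this
  refine ⟨hh.eigenvalues, Uᵀ, ?_, by rwa [Matrix.transpose_transpose]⟩
  rw [Matrix.mem_orthogonalGroup_iff]
  simpa using hU1

theorem semi_top {ν : Measure ℝ} [IsProbabilityMeasure ν] (hν : IsCompact ν.support) (htop : sSup ν.support = 2)
    {lam : ∀ N : ℕ, Fin N → ℝ} (h : Semi lam)
    (hw : ∀ g : BoundedContinuousFunction ℝ ℝ,
      Tendsto (fun N : ℕ => (∑ k, g (lam N k)) / (N : ℝ)) atTop (𝓝 (∫ x, g x ∂ν))) :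
    ∀ δ : ℝ, 0 < δ → ∀ᶠ N : ℕ in atTop, (∀ k, |lam N k| ≤ 2 + δ) ∧ ∃ k, 2 - δ < lam N k := fun δ hδ => by
  have hpos := integral_top_pos hν (half_pos hδ)
  filter_upwards [(hw _).eventually (eventually_gt_nhds hpos), h.bdd δ hδ] with N hN hb
  refine ⟨hb, ?_⟩
  by_contra hcon
  push Not at hcon
  rw [Finset.sum_eq_zero fun k _ => ramp_eq_zero (by linarith) (by linarith [hcon k])] at hN
  simp at hN

/-- **the semicircle law with both edges, in the form of admissible spectra** -/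
theorem semicircle_good :
    ∃ ν : Measure ℝ, IsProbabilityMeasure ν ∧ IsCompact ν.support ∧
      sSup ν.support = 2 ∧ sInf ν.support = -2 ∧
      (∀ᶠ w in atTop, w = 1 / (∫ x, 1/(w-x) ∂ν) + (∫ x, 1/(w-x) ∂ν)) ∧
      ∃ G : ∀ N : ℕ, Set (Fin N × Fin N → ℝ),
        (∀ N, MeasurableSet (G N)) ∧
        Tendsto (fun N => (Pattern.gauss (Fin N × Fin N)).real (G N)) atTop (𝓝 1) ∧
        ∀ (g : ∀ N, Fin N × Fin N → ℝ) (lam : ∀ N, Fin N → ℝ) (Q : ∀ N, Matrix (Fin N) (Fin N) ℝ),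
          (∀ᶠ N in atTop, g N ∈ G N) →
          (∀ N, Q N ∈ Matrix.orthogonalGroup (Fin N) ℝ) →
          (∀ N, goe (g N) = (Q N).transpose * Matrix.diagonal (lam N) * Q N) →
          Admissible ν lam := by
  classical
  obtain ⟨G, hGm, hG1, hGgood⟩ := exists_good
  set g0 : ∀ N, Fin N × Fin N → ℝ := fun N => if h : (G N).Nonempty then h.choose else 0
  have hg0 : ∀ᶠ N in atTop, g0 N ∈ G N := by
    filter_upwards [hG1.eventually (eventually_gt_nhds zero_lt_one)] with N hN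
    have hne : (G N).Nonempty := by
      by_contra hc
      rw [Set.not_nonempty_iff_eq_empty] at hc
      simp [hc] at hN
    simp only [g0, dif_pos hne]
    exact hne.choose_spec
  choose lam0 Q0 hQ0 hJ0 using fun N => exists_eig_goe (g0 N)
  have h0 : Semi lam0 := semi_of_good hQ0 hJ0 (hGgood g0 hg0)
  obtain ⟨ν, hν, hν2, heq, -⟩ := semi_cluster h0 (Ultrafilter.of atTop) (Ultrafilter.of_le _)
  have := hν.prob
  have hweak : ∀ {lam : ∀ N : ℕ, Fin N → ℝ}, Semi lam → ∀ g : BoundedContinuousFunction ℝ ℝ,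
      Tendsto (fun N : ℕ => (∑ k, g (lam N k)) / (N : ℝ)) atTop (𝓝 (∫ x, g x ∂ν)) := fun {lam} h g => by
    rw [tendsto_iff_ultrafilter]
    intro U hU
    obtain ⟨μ, hμ, -, heμ, hlim⟩ := semi_cluster h U hU
    rw [semi_unique hν hμ heq heμ g]
    exact hlim g
  have hsym : ν.map (fun x => -x) = ν := by
    have : IsProbabilityMeasure (ν.map fun x : ℝ => -x) := Measure.isProbabilityMeasure_map (by fun_prop)
    refine ext_of_forall_integral_eq_of_IsFiniteMeasure fun g => ?_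
    rw [integral_map (by fun_prop) g.continuous.aestronglyMeasurable]
    exact tendsto_nhds_unique (hweak h0 (g.compContinuous ⟨fun x => -x, continuous_neg⟩)) (hweak h0.neg g)
  have hsub : ν.support ⊆ Set.Icc (-2:ℝ) 2 :=
    Measure.support_subset_of_isClosed isClosed_Icc (hν2.mono fun x hx => abs_le.1 hx)
  have hcomp : IsCompact ν.support := isCompact_Icc.of_isClosed_subset Measure.isClosed_support hsub
  have hsup : sSup ν.support = 2 :=
    le_antisymm (csSup_le support_nonempty fun x hx => (hsub hx).2) (two_le_top hν heq)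
  have hmem : (-2:ℝ) ∈ ν.support := by
    have h2 : (2:ℝ) ∈ ν.support := hsup ▸ hcomp.sSup_mem support_nonempty
    rw [Measure.mem_support_iff_forall] at h2 ⊢
    intro V hV
    have h3 := h2 ((fun x : ℝ => -x) ⁻¹' V) (continuous_neg.continuousAt.preimage_mem_nhds hV)
    calc 0 < ν ((fun x : ℝ => -x) ⁻¹' V) := h3
      _ ≤ ν.map (fun x : ℝ => -x) V := Measure.le_map_apply (by fun_prop) _
      _ = ν V := by rw [hsym]
  have hinf : sInf ν.support = -2 :=
    le_antisymm (csInf_le hcomp.bddBelow hmem) (le_csInf support_nonempty fun x hx => (hsub hx).1)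
  refine ⟨ν, hν.prob, hcomp, hsup, hinf, (eventually_gt_atTop 3).mono fun w hw => heq w hw, G, hGm, hG1,
    fun g lam Q hg hQ hJ => ?_⟩
  have h := semi_of_good hQ hJ (hGgood g hg)
  refine ⟨hweak h, ?_, ?_⟩
  · rw [hsup, Metric.tendsto_nhds]
    intro δ hδ
    filter_upwards [semi_top hcomp hsup h (hweak h) (δ / 2) (half_pos hδ), eventually_gt_atTop 0]
      with N ⟨hN1, k, hk⟩ hN
    have : Nonempty (Fin N) := ⟨⟨0, hN⟩⟩
    have h1 : lam N k ≤ ⨆ k, lam N k := le_ciSup (Set.finite_range _).bddAbove k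
    have h2 : ⨆ k, lam N k ≤ 2 + δ / 2 := ciSup_le fun k => (le_abs_self _).trans (hN1 k)
    rw [Real.dist_eq, abs_lt]
    constructor <;> linarith
  · rw [hinf, Metric.tendsto_nhds]
    intro δ hδ
    filter_upwards [semi_top hcomp hsup h.neg (hweak h.neg) (δ / 2) (half_pos hδ), eventually_gt_atTop 0]
      with N ⟨hN1, k, hk⟩ hN
    have : Nonempty (Fin N) := ⟨⟨0, hN⟩⟩
    have h1 : ⨅ k, lam N k ≤ lam N k := ciInf_le (Set.finite_range _).bddBelow k
    have h2 : -(2 + δ / 2) ≤ ⨅ k, lam N k := le_ciInf fun k => by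
      linarith [(abs_le.1 (hN1 k)).2]
    rw [Real.dist_eq, abs_lt]
    constructor <;> linarith

end Vale.Agent.P166.Soft
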